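import Vale.Agent.Helper7.P302.Defs
import Vale.Agent.Helper7.P302.Check

/-!
# P302: bridge from the multiset form `Valid` of the pair-slot system to the
index form used in the packing lower bound

If no valid family of pairs in `Valid slots R [] M` has more than `T` pairs, then there are no
`T + 1` index-disjoint pairs of positives sitting in distinct slots.
-/

namespace Vale.Agent.Helper6.P302Bridge

open Vale.Agent.Helper7.P302

/-- The multiset of all entries of a list of pairs. -/
theorem flatMap_pair_coe (M : List (ℕ × ℕ)) :
    ((M.flatMap fun x => [x.1, x.2] : List ℕ) : Multiset ℕ) =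
      ((M.map Prod.fst : List ℕ) : Multiset ℕ) + ((M.map Prod.snd : List ℕ) : Multiset ℕ) := by
  induction M with
  | nil => simp
  | cons x M ih =>
    have h1 : ((((x :: M).flatMap fun x => [x.1, x.2] : List ℕ)) : Multiset ℕ) =
        x.1 ::ₘ x.2 ::ₘ ((M.flatMap fun x => [x.1, x.2] : List ℕ) : Multiset ℕ) := by
      simp [List.flatMap_cons]
    rw [h1, ih]
    simp only [List.map_cons, ← Multiset.cons_coe, Multiset.cons_add, Multiset.add_cons]
    exact Multiset.cons_swap _ _ _

/-- Reading a list at the positions of a duplicate-free multiset of indices gives a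
sub-multiset of the list. -/
theorem map_getD_le (L : List ℕ) (n : ℕ) (hL : L.length = n) (m : Multiset (Fin n))
    (hm : m.Nodup) : m.map (fun i => L.getD i.1 0) ≤ (L : Multiset ℕ) := by
  subst hL
  have h1 : m ≤ (Finset.univ : Finset (Fin L.length)).val := by
    rw [Multiset.le_iff_subset hm]
    intro x _
    exact Finset.mem_univ_val x
  have h2 := Multiset.map_le_map (f := fun i : Fin L.length => L.getD i.1 0) h1
  have h3 : (Finset.univ : Finset (Fin L.length)).val.map (fun i => L.getD i.1 0) =
      (L : Multiset ℕ) := by
    rw [Fin.univ_val_map]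
    congr 1
    apply List.ext_getElem
    · simp
    · intro i h1 h2
      simp at h1
      simp [List.getD_eq_getElem?_getD]
  rw [h3] at h2
  exact h2

/-- General bridge: from the multiset form to the index form. -/
theorem index_of_valid (slots R : List ℕ) (T a b : ℕ) (ha : slots.length = a)
    (hb : R.length = b)
    (hV : ∀ M : List (ℕ × ℕ), Valid slots R [] M → M.length ≤ T)
    (s : Fin (T + 1) → Fin a) (p q : Fin (T + 1) → Fin b)
    (hs : Function.Injective s) (hpq : Function.Injective (Sum.elim p q))
    (hfit : ∀ k, R.getD (p k) 0 + R.getD (q k) 0 ≤ slots.getD (s k) 0) : False := by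
  classical
  have hp : Function.Injective p := by
    intro i j h
    have := hpq (a₁ := Sum.inl i) (a₂ := Sum.inl j) (by simpa using h)
    simpa using this
  have hq : Function.Injective q := by
    intro i j h
    have := hpq (a₁ := Sum.inr i) (a₂ := Sum.inr j) (by simpa using h)
    simpa using this
  have hdis : ∀ i j, p i ≠ q j := by
    intro i j h
    have := hpq (a₁ := Sum.inl i) (a₂ := Sum.inr j) (by simpa using h)
    simp at this
  set M : List (ℕ × ℕ) := List.ofFn (fun k : Fin (T + 1) => (R.getD (p k) 0, R.getD (q k) 0))
    with hM
  have hlen : M.length = T + 1 := by simp [hM]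
  have hvalid : Valid slots R [] M := by
    refine ⟨?_, ?_⟩
    · rw [flatMap_pair_coe]
      have e1 : ((M.map Prod.fst : List ℕ) : Multiset ℕ) =
          ((Finset.univ : Finset (Fin (T + 1))).val.map p).map (fun i => R.getD i.1 0) := by
        rw [Multiset.map_map, Fin.univ_val_map, hM, List.map_ofFn]
        rfl
      have e2 : ((M.map Prod.snd : List ℕ) : Multiset ℕ) =
          ((Finset.univ : Finset (Fin (T + 1))).val.map q).map (fun i => R.getD i.1 0) := by
        rw [Multiset.map_map, Fin.univ_val_map, hM, List.map_ofFn]
        rfl
      rw [e1, e2, ← Multiset.map_add]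
      apply map_getD_le R b hb
      rw [Multiset.nodup_add]
      refine ⟨(Finset.univ.nodup).map hp, (Finset.univ.nodup).map hq, ?_⟩
      rw [Multiset.disjoint_left]
      intro x hx hx2
      rw [Multiset.mem_map] at hx hx2
      obtain ⟨i, _, rfl⟩ := hx
      obtain ⟨j, _, hj⟩ := hx2
      exact hdis i j hj.symm
    · refine ⟨(Finset.univ : Finset (Fin (T + 1))).val.map
        (fun k => (R.getD (p k) 0 + R.getD (q k) 0, slots.getD (s k) 0)), ?_, ?_, ?_⟩
      · rw [Multiset.map_map, Fin.univ_val_map, hM, List.map_ofFn]
        simp only [Multiset.coe_nil, zero_add]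
        rfl
      · have e3 : ((Finset.univ : Finset (Fin (T + 1))).val.map
            (fun k => (R.getD (p k) 0 + R.getD (q k) 0, slots.getD (s k) 0))).map Prod.snd =
            ((Finset.univ : Finset (Fin (T + 1))).val.map s).map
              (fun i => slots.getD i.1 0) := by
          rw [Multiset.map_map, Multiset.map_map]
          rfl
        rw [e3]
        exact map_getD_le slots a ha _ ((Finset.univ.nodup).map hs)
      · intro x hx
        rw [Multiset.mem_map] at hx
        obtain ⟨k, _, rfl⟩ := hx
        exact hfit k
  have := hV M hvalid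
  omega

/-- The hypothesis of the packing lower bound, from the multiset statement proved by the
certificate checker. -/
theorem hD_of_valid (hV : ∀ M : List (ℕ × ℕ), Valid slotsL posL [] M → M.length ≤ 13) :
    ∀ (s : Fin 14 → Fin 15) (p q : Fin 14 → Fin 31), Function.Injective s →
      Function.Injective (Sum.elim p q) →
      (∀ k, posL.getD (p k) 0 + posL.getD (q k) 0 ≤ slotsL.getD (s k) 0) → False :=
  fun s p q hs hpq hfit =>
    index_of_valid slotsL posL 13 15 31 (by decide) (by decide) hV s p q hs hpq hfit

end Vale.Agent.Helper6.P302Bridge
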