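import Mathlib

/-!
Edit distance on binary words and inequalities for maps into the sequence space `ℓ¹`.
-/

namespace Vale.Agent.Helper6.EditL1

/-- Inner recursion of the edit distance: if `f = ed xs`, then `edAux x f ys` is the edit
distance from `x :: xs` to `ys`. -/
def edAux (x : Bool) (f : List Bool → ℕ) : List Bool → ℕ
  | [] => f [] + 1
  | y :: ys => min (min (f (y :: ys) + 1) (edAux x f ys + 1)) (f ys + if x = y then 0 else 1)

/-- The edit (Levenshtein) distance between two binary words: the least number of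
single-symbol insertions, deletions and substitutions, each of unit cost, given by the usual
recursion. -/
def ed : List Bool → List Bool → ℕ
  | [], ys => ys.length
  | x :: xs, ys => edAux x (ed xs) ys

lemma ed_nil_left (ys : List Bool) : ed [] ys = ys.length := rfl

lemma ed_nil_right (xs : List Bool) : ed xs [] = xs.length := by
  induction xs with
  | nil => rfl
  | cons x xs ih => simp [ed, edAux, ih]

/-- The usual recursion of the edit distance. -/
lemma ed_cons_cons (x y : Bool) (xs ys : List Bool) :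
    ed (x :: xs) (y :: ys) =
      min (min (ed xs (y :: ys) + 1) (ed (x :: xs) ys + 1)) (ed xs ys + if x = y then 0 else 1) :=
  rfl

lemma ed_le_cons_right (xs ys : List Bool) (y : Bool) : ed xs (y :: ys) ≤ ed xs ys + 1 := by
  cases xs with
  | nil => simp [ed]
  | cons x xs =>
    rw [ed_cons_cons]
    exact (min_le_left _ _).trans (min_le_right _ _)

lemma ed_le_cons_left (xs ys : List Bool) (x : Bool) : ed (x :: xs) ys ≤ ed xs ys + 1 := by
  cases ys with
  | nil => simp [ed_nil_right]
  | cons y ys =>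
    rw [ed_cons_cons]
    exact (min_le_left _ _).trans (min_le_left _ _)

lemma ed_le_of_cons_right (xs : List Bool) : ∀ (ys : List Bool) (y : Bool),
    ed xs ys ≤ ed xs (y :: ys) + 1 := by
  induction xs with
  | nil => intro ys y; simp only [ed, List.length_cons]; omega
  | cons x xs ih =>
    intro ys y
    rw [ed_cons_cons]
    have h1 := ed_le_cons_left xs ys x
    have h2 := ih ys y
    split_ifs <;> omega

lemma ed_le_of_cons_left (ys : List Bool) : ∀ (xs : List Bool) (x : Bool),
    ed xs ys ≤ ed (x :: xs) ys + 1 := by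
  induction ys with
  | nil => intro xs x; simp only [ed_nil_right, List.length_cons]; omega
  | cons y ys ih =>
    intro xs x
    rw [ed_cons_cons]
    have h1 := ed_le_cons_right xs ys y
    have h2 := ih xs x
    split_ifs <;> omega

/-- A common first symbol can be cancelled. -/
lemma ed_cons_same (a : Bool) (xs ys : List Bool) : ed (a :: xs) (a :: ys) = ed xs ys := by
  rw [ed_cons_cons]
  have h1 := ed_le_of_cons_right xs ys a
  have h2 := ed_le_of_cons_left ys xs a
  simp only [if_true]
  omega

/-- A common initial segment can be cancelled. -/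
lemma ed_append_left (l xs ys : List Bool) : ed (l ++ xs) (l ++ ys) = ed xs ys := by
  induction l with
  | nil => rfl
  | cons a l ih => rw [List.cons_append, List.cons_append, ed_cons_same, ih]


open MeasureTheory

/-- the layer function of a pair of reals -/
noncomputable def layer (s t θ : ℝ) : ℝ := if (decide (θ < s)) = (decide (θ < t)) then 0 else 1

lemma layer_eq_indicator (s t : ℝ) :
    layer s t = Set.indicator (Set.Ico (min s t) (max s t)) (1 : ℝ → ℝ) := by
  funext θ
  unfold layer
  by_cases h1 : θ < s <;> by_cases h2 : θ < t <;>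
    simp [Set.indicator, h1, h2, not_lt.mp]

lemma integrable_layer (s t : ℝ) : Integrable (layer s t) := by
  rw [layer_eq_indicator]
  exact (integrable_indicator_iff measurableSet_Ico).mpr
    (integrableOn_const (by simp) (by simp))

lemma integral_layer (s t : ℝ) : ∫ θ, layer s t θ = |s - t| := by
  rw [layer_eq_indicator, integral_indicator_one measurableSet_Ico,
    Real.volume_real_Ico_of_le (min_le_max)]
  rcases le_total s t with h | h
  · rw [min_eq_left h, max_eq_right h, abs_sub_comm, abs_of_nonneg (sub_nonneg.mpr h)]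
  · rw [min_eq_right h, max_eq_left h, abs_of_nonneg (sub_nonneg.mpr h)]

/-- an inequality valid for all cut semimetrics is valid on the real line -/
lemma cut_real {ι : Type*} [Fintype ι] (w : ι → ι → ℝ)
    (hw : ∀ S : ι → Bool, ∑ i, ∑ j, w i j * (if S i = S j then 0 else 1) ≤ 0) (t : ι → ℝ) :
    ∑ i, ∑ j, w i j * |t i - t j| ≤ 0 := by
  have h1 : ∑ i, ∑ j, w i j * |t i - t j|
      = ∫ θ, ∑ i, ∑ j, w i j * layer (t i) (t j) θ := by
    rw [integral_finsetSum _ (fun i _ => integrable_finsetSum _
      (fun j _ => (integrable_layer (t i) (t j)).const_mul (w i j)))]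
    refine Finset.sum_congr rfl (fun i _ => ?_)
    rw [integral_finsetSum _ (fun j _ => (integrable_layer (t i) (t j)).const_mul (w i j))]
    refine Finset.sum_congr rfl (fun j _ => ?_)
    rw [integral_const_mul, integral_layer]
  rw [h1]
  apply integral_nonpos
  intro θ
  exact hw (fun i => decide (θ < t i))

lemma norm_l1 (f : lp (fun _ : ℕ => ℝ) 1) : ‖f‖ = ∑' k, |f k| := by
  have h := lp.norm_eq_tsum_rpow (p := 1) (by simp) f
  simpa using h

lemma summable_l1 (f : lp (fun _ : ℕ => ℝ) 1) : Summable (fun k => |f k|) := by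
  have h := (lp.memℓp f).summable (by simp)
  simpa using h

/-- an inequality valid for all cut semimetrics is valid in `ℓ¹` -/
lemma cut_l1 {ι : Type*} [Fintype ι] (w : ι → ι → ℝ)
    (hw : ∀ S : ι → Bool, ∑ i, ∑ j, w i j * (if S i = S j then 0 else 1) ≤ 0)
    (u : ι → lp (fun _ : ℕ => ℝ) 1) :
    ∑ i, ∑ j, w i j * ‖u i - u j‖ ≤ 0 := by
  have hs : ∀ i j, Summable (fun k => w i j * |u i k - u j k|) := by
    intro i j
    have := (summable_l1 (u i - u j)).mul_left (w i j)
    simpa [lp.coeFn_sub] using this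
  have h1 : ∑ i, ∑ j, w i j * ‖u i - u j‖
      = ∑' k, ∑ i, ∑ j, w i j * |u i k - u j k| := by
    rw [Summable.tsum_finsetSum (fun i _ => summable_sum (fun j _ => hs i j))]
    refine Finset.sum_congr rfl (fun i _ => ?_)
    rw [Summable.tsum_finsetSum (fun j _ => hs i j)]
    refine Finset.sum_congr rfl (fun j _ => ?_)
    rw [norm_l1, ← tsum_mul_left]
    simp [lp.coeFn_sub]
  rw [h1]
  exact tsum_nonpos (fun k => cut_real w hw (fun i => u i k))


/-- the cut inequality behind a hypermetric inequality: integer weights `c` of sum `1` -/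
lemma hypermetric_cut {ι : Type*} [Fintype ι] (c : ι → ℤ) (hc : ∑ i, c i = 1) (S : ι → Bool) :
    ∑ i, ∑ j, ((c i : ℝ) * (c j : ℝ)) * (if S i = S j then 0 else 1) ≤ 0 := by
  have key : ∀ i j, ((c i : ℝ) * (c j : ℝ)) * (if S i = S j then (0 : ℝ) else 1)
      = ((c i * (if S i then 1 else 0) : ℤ) : ℝ) * ((c j * (if S j then 0 else 1) : ℤ) : ℝ)
        + ((c i * (if S i then 0 else 1) : ℤ) : ℝ) * ((c j * (if S j then 1 else 0) : ℤ) : ℝ) := by
    intro i j
    cases S i <;> cases S j <;> simp
  simp only [key, Finset.sum_add_distrib, ← Finset.sum_mul_sum]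
  have h2 : ∑ i, ((c i * (if S i then 0 else 1) : ℤ) : ℝ)
      = 1 - ∑ i, ((c i * (if S i then 1 else 0) : ℤ) : ℝ) := by
    rw [eq_sub_iff_add_eq, ← Finset.sum_add_distrib]
    have : ∀ i, ((c i * (if S i then 0 else 1) : ℤ) : ℝ) + ((c i * (if S i then 1 else 0) : ℤ) : ℝ)
        = ((c i : ℤ) : ℝ) := by
      intro i
      cases S i <;> simp
    simp only [this]
    exact_mod_cast hc
  rw [h2]
  rw [← Int.cast_sum]
  set B : ℤ := ∑ i, c i * (if S i then 1 else 0) with hB
  have hBB : (B : ℝ) * (1 - (B : ℝ)) ≤ 0 := by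
    rcases le_or_gt B 0 with h | h
    · have h' : (B : ℝ) ≤ 0 := by exact_mod_cast h
      nlinarith
    · have h' : (1 : ℝ) ≤ (B : ℝ) := by exact_mod_cast h
      nlinarith
  linarith

/-- hypermetric inequalities hold in `ℓ¹` -/
lemma hypermetric_l1 {ι : Type*} [Fintype ι] (c : ι → ℤ) (hc : ∑ i, c i = 1)
    (u : ι → lp (fun _ : ℕ => ℝ) 1) :
    ∑ i, ∑ j, ((c i : ℝ) * (c j : ℝ)) * ‖u i - u j‖ ≤ 0 :=
  cut_l1 (fun i j => (c i : ℝ) * (c j : ℝ)) (hypermetric_cut c hc) u

/-- positive part of a hypermetric sum of edit distances -/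
def posSum {ι : Type*} [Fintype ι] (c : ι → ℤ) (s : ι → List Bool) : ℤ :=
  ∑ i, ∑ j, if 0 < c i * c j then c i * c j * (ed (s i) (s j) : ℤ) else 0

/-- negative part of a hypermetric sum of edit distances -/
def negSum {ι : Type*} [Fintype ι] (c : ι → ℤ) (s : ι → List Bool) : ℤ :=
  ∑ i, ∑ j, if 0 < c i * c j then 0 else -(c i * c j) * (ed (s i) (s j) : ℤ)

/-- the distortion bound given by a hypermetric configuration of words with a common
initial segment `pre` -/
lemma bound_of_config {ι : Type*} [Fintype ι] (c : ι → ℤ) (hc : ∑ i, c i = 1)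
    (s : ι → List Bool) (pre : List Bool) (f : List Bool → lp (fun _ : ℕ => ℝ) 1) (a b : ℝ)
    (hf : ∀ i j, a * (ed (pre ++ s i) (pre ++ s j) : ℝ) ≤ ‖f (pre ++ s i) - f (pre ++ s j)‖ ∧
      ‖f (pre ++ s i) - f (pre ++ s j)‖ ≤ b * (ed (pre ++ s i) (pre ++ s j) : ℝ)) :
    a * (posSum c s : ℝ) ≤ b * (negSum c s : ℝ) := by
  have h := hypermetric_l1 c hc (fun i => f (pre ++ s i))
  have hterm : ∀ i j, a * ((if 0 < c i * c j then c i * c j * (ed (s i) (s j) : ℤ) else 0 : ℤ) : ℝ)
      - b * ((if 0 < c i * c j then 0 else -(c i * c j) * (ed (s i) (s j) : ℤ) : ℤ) : ℝ)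
      ≤ ((c i : ℝ) * (c j : ℝ)) * ‖f (pre ++ s i) - f (pre ++ s j)‖ := by
    intro i j
    obtain ⟨h1, h2⟩ := hf i j
    rw [ed_append_left] at h1 h2
    by_cases hpos : 0 < c i * c j
    · have hpos' : (0 : ℝ) < (c i : ℝ) * (c j : ℝ) := by exact_mod_cast hpos
      simp only [hpos, if_true]
      push_cast
      nlinarith
    · have hneg' : (c i : ℝ) * (c j : ℝ) ≤ 0 := by exact_mod_cast (not_lt.mp hpos)
      simp only [hpos, if_false]
      push_cast
      nlinarith
  have hsum : a * (posSum c s : ℝ) - b * (negSum c s : ℝ)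
      ≤ ∑ i, ∑ j, ((c i : ℝ) * (c j : ℝ)) * ‖f (pre ++ s i) - f (pre ++ s j)‖ := by
    unfold posSum negSum
    rw [Int.cast_sum, Int.cast_sum, Finset.mul_sum, Finset.mul_sum, ← Finset.sum_sub_distrib]
    refine Finset.sum_le_sum (fun i _ => ?_)
    rw [Int.cast_sum, Int.cast_sum, Finset.mul_sum, Finset.mul_sum, ← Finset.sum_sub_distrib]
    exact Finset.sum_le_sum (fun j _ => hterm i j)
  linarith

end Vale.Agent.Helper6.EditL1
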