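import Mathlib
import Vale.Agent.Helper6.EditL1

/-!
Explicit maps of binary words into `ℓ¹` built from weighted cuts.
-/

namespace Vale.Agent.Helper6.CutEmbed

open Vale.Agent.Helper6.EditL1

/-- The binary value of a word (first symbol most significant). -/
def idx (x : List Bool) : ℕ := x.foldl (fun acc b => 2 * acc + (if b then 1 else 0)) 0

/-- The `k`-th coordinate of the image of the word `x`: a list of cuts is given as pairs
(mask, weight); the coordinate is `weight / D` if the bit number `idx x` of the mask is set and
`0` otherwise. -/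
noncomputable def coord (cuts : List (ℕ × ℕ)) (D : ℕ) (k : ℕ) (x : List Bool) : ℝ :=
  if ((cuts.getD k (0, 0)).1).testBit (idx x) then ((cuts.getD k (0, 0)).2 : ℝ) / D else 0

/-- The map into `ℓ¹` given by a list of weighted cuts. -/
noncomputable def embed (cuts : List (ℕ × ℕ)) (D : ℕ) (x : List Bool) :
    lp (fun _ : ℕ => ℝ) 1 :=
  ∑ k ∈ Finset.range cuts.length, lp.single 1 k (coord cuts D k x)

/-- `D` times the distance of the images of two words. -/
def cutDist (cuts : List (ℕ × ℕ)) (x y : List Bool) : ℕ :=
  (cuts.map (fun c => if c.1.testBit (idx x) = c.1.testBit (idx y) then 0 else c.2)).sum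

lemma sum_range_getD {α : Type*} (F : α → ℝ) (d : α) (l : List α) :
    ∑ k ∈ Finset.range l.length, F (l.getD k d) = (l.map F).sum := by
  induction l with
  | nil => simp
  | cons a l ih =>
    rw [List.length_cons, Finset.sum_range_succ', List.map_cons, List.sum_cons, add_comm]
    simp only [List.getD_cons_succ, List.getD_cons_zero]
    rw [ih]

lemma list_sum_map_div {α : Type*} (g : α → ℝ) (D : ℝ) (l : List α) :
    (l.map (fun c => g c / D)).sum = (l.map g).sum / D := by
  induction l with
  | nil => simp
  | cons a l ih => simp only [List.map_cons, List.sum_cons, ih, add_div]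

lemma norm_embed_sub (cuts : List (ℕ × ℕ)) (D : ℕ) (x y : List Bool) :
    ‖embed cuts D x - embed cuts D y‖ = (cutDist cuts x y : ℝ) / D := by
  have h1 : embed cuts D x - embed cuts D y
      = ∑ k ∈ Finset.range cuts.length, lp.single 1 k (coord cuts D k x - coord cuts D k y) := by
    unfold embed
    rw [← Finset.sum_sub_distrib]
    refine Finset.sum_congr rfl (fun k _ => ?_)
    rw [lp.single_sub]
  have h2 := lp.norm_sum_single (p := 1) (E := fun _ : ℕ => ℝ) (by simp)
    (fun k => coord cuts D k x - coord cuts D k y) (Finset.range cuts.length)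
  simp only [ENNReal.toReal_one, Real.rpow_one] at h2
  rw [h1, h2]
  have h3 : ∀ k, ‖coord cuts D k x - coord cuts D k y‖
      = (fun c : ℕ × ℕ => ((if c.1.testBit (idx x) = c.1.testBit (idx y) then 0 else c.2 : ℕ) : ℝ) / D)
          (cuts.getD k (0, 0)) := by
    intro k
    unfold coord
    generalize cuts.getD k (0, 0) = c
    have hnn : (0 : ℝ) ≤ (c.2 : ℝ) / D := by positivity
    by_cases hx : c.1.testBit (idx x) <;> by_cases hy : c.1.testBit (idx y) <;>
      simp [hx, hy]
  rw [Finset.sum_congr rfl (fun k _ => h3 k),
    sum_range_getD (fun c : ℕ × ℕ =>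
      ((if c.1.testBit (idx x) = c.1.testBit (idx y) then 0 else c.2 : ℕ) : ℝ) / D) (0, 0) cuts]
  unfold cutDist
  rw [Nat.cast_list_sum, List.map_map, list_sum_map_div]
  rfl

end Vale.Agent.Helper6.CutEmbed
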