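import Mathlib
import Vale.Agent.Results.P238.SmallCubeBounds

/-!
One more hypermetric configuration for P238: seven binary words of length `8` violating a
seven-point hypermetric inequality of `ℓ¹` by the factor `35/26`; and the plain form of the
resulting list of bounds, used by the hand-in `P238.LargerCubeBounds`.
-/

namespace Vale.Agent.Helper6.P238More

open Vale.Agent.Helper6.EditL1

open Vale.Agent.Results.P238.SmallCubeBounds

/-- the words of the hypermetric configuration in `{0,1}^8` -/
def w8 : Fin 7 → List Bool :=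
  ![[false, false, true, false, true, true, false, true],
    [true, false, false, false, true, false, true, true],
    [true, false, true, true, false, false, true, false],
    [true, true, false, true, false, true, false, false],
    [false, true, true, false, false, true, false, true],
    [true, false, false, true, false, true, true, false],
    [true, false, true, false, true, false, false, true]]

lemma pos8 : posSum c7 w8 = 70 := by decide
lemma neg8 : negSum c7 w8 = 52 := by decide
lemma len8 : ∀ i, (w8 i).length = 8 := by decide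

/-- the bound `35/26` for `n ≥ 8` -/
theorem bound8 (n : ℕ) (h : 8 ≤ n) (f : List Bool → lp (fun _ : ℕ => ℝ) 1) (a b : ℝ)
    (hf : ∀ x y : List Bool, x.length = n → y.length = n →
      a * (ed x y : ℝ) ≤ ‖f x - f y‖ ∧ ‖f x - f y‖ ≤ b * (ed x y : ℝ)) :
    35 / 26 * a ≤ b := by
  have := bound_padded c7 sum_c7 w8 8 len8 n h f a b hf
  rw [pos8, neg8] at this
  push_cast at this
  linarith

theorem plain8 :
    ∃ E : List Bool → List Bool → ℕ,
      ((∀ y : List Bool, E [] y = y.length) ∧
        (∀ x : List Bool, E x [] = x.length) ∧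
        (∀ (s t : Bool) (x y : List Bool),
          E (s :: x) (t :: y) =
            min (min (E x (t :: y) + 1) (E (s :: x) y + 1))
              (E x y + if s = t then 0 else 1))) ∧
      (∀ E' : List Bool → List Bool → ℕ,
        ((∀ y : List Bool, E' [] y = y.length) ∧
          (∀ x : List Bool, E' x [] = x.length) ∧
          (∀ (s t : Bool) (x y : List Bool),
            E' (s :: x) (t :: y) =
              min (min (E' x (t :: y) + 1) (E' (s :: x) y + 1))
                (E' x y + if s = t then 0 else 1))) →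
        E' = E) ∧
      ∀ (n : ℕ) (f : List Bool → ℕ → ℝ) (a b : ℝ),
        (∀ x : List Bool, Summable (fun i : ℕ => |f x i|)) →
        (∀ x y : List Bool, x.length = n → y.length = n →
          a * (E x y : ℝ) ≤ ∑' i : ℕ, |f x i - f y i| ∧
            ∑' i : ℕ, |f x i - f y i| ≤ b * (E x y : ℝ)) →
        (3 ≤ n → 8 / 7 * a ≤ b) ∧ (4 ≤ n → 5 / 4 * a ≤ b) ∧ (5 ≤ n → 24 / 19 * a ≤ b) ∧
          (6 ≤ n → 9 / 7 * a ≤ b) ∧ (8 ≤ n → 35 / 26 * a ≤ b) := by
  refine ⟨ed, ⟨ed_nil_left, ed_nil_right, fun s t x y => ed_cons_cons s t x y⟩, ?_, ?_⟩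
  · rintro E' ⟨hnil_left, hnil_right, hcons⟩
    funext x
    induction x with
    | nil => funext y; rw [hnil_left, ed_nil_left]
    | cons s x ihx =>
      funext y
      induction y with
      | nil => rw [hnil_right, ed_nil_right]
      | cons t y ihy => rw [hcons, ed_cons_cons, ihx, ihy]
  · intro n f a b hsum hf
    have h1 : (0 : ℝ) < (1 : ENNReal).toReal := by simp
    have mem : ∀ x : List Bool, Memℓp (f x) 1 := by
      intro x
      rw [memℓp_gen_iff h1]
      simpa using hsum x
    have hnorm : ∀ x y : List Bool,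
        ‖(⟨f x, mem x⟩ : lp (fun _ : ℕ => ℝ) 1) - ⟨f y, mem y⟩‖ = ∑' i : ℕ, |f x i - f y i| := by
      intro x y
      rw [lp.norm_eq_tsum_rpow h1]
      simp
      rfl
    have hf' : ∀ x y : List Bool, x.length = n → y.length = n →
        a * (ed x y : ℝ) ≤ ‖(⟨f x, mem x⟩ : lp (fun _ : ℕ => ℝ) 1) - ⟨f y, mem y⟩‖ ∧
          ‖(⟨f x, mem x⟩ : lp (fun _ : ℕ => ℝ) 1) - ⟨f y, mem y⟩‖ ≤ b * (ed x y : ℝ) := by
      intro x y hx hy
      rw [hnorm x y]
      exact hf x y hx hy
    obtain ⟨h3, h4, h5, h6⟩ := Vale.Agent.Results.P238.SmallCubeBounds.result n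
      (fun x => (⟨f x, mem x⟩ : lp (fun _ : ℕ => ℝ) 1)) a b hf'
    exact ⟨h3, h4, h5, h6, fun h8 =>
      bound8 n h8 (fun x => (⟨f x, mem x⟩ : lp (fun _ : ℕ => ℝ) 1)) a b hf'⟩

end Vale.Agent.Helper6.P238More
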