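import Mathlib
import Vale.Agent.Results.P238.SmallCubeBounds

/-!
Proof of the plain form of `P238.SmallCubeBounds`, used by the hand-in
`P238.SmallCubeBoundsPlain`.
-/

namespace Vale.Agent.Helper6.P238Plain

open Vale.Agent.Helper6.EditL1

theorem plain :
    ∃ E : List Bool → List Bool → ℕ,
      ((∀ y : List Bool, E [] y = y.length) ∧
        (∀ x : List Bool, E x [] = x.length) ∧
        (∀ (s t : Bool) (x y : List Bool),
          E (s :: x) (t :: y) =
            min (min (E x (t :: y) + 1) (E (s :: x) y + 1))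
              (E x y + if s = t then 0 else 1))) ∧
      (∀ E' : List Bool → List Bool → ℕ,
        ((∀ y : List Bool, E' [] y = y.length) ∧
          (∀ x : List Bool, E' x [] = x.length) ∧
          (∀ (s t : Bool) (x y : List Bool),
            E' (s :: x) (t :: y) =
              min (min (E' x (t :: y) + 1) (E' (s :: x) y + 1))
                (E' x y + if s = t then 0 else 1))) →
        E' = E) ∧
      ∀ (n : ℕ) (f : List Bool → ℕ → ℝ) (a b : ℝ),
        (∀ x : List Bool, Summable (fun i : ℕ => |f x i|)) →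
        (∀ x y : List Bool, x.length = n → y.length = n →
          a * (E x y : ℝ) ≤ ∑' i : ℕ, |f x i - f y i| ∧
            ∑' i : ℕ, |f x i - f y i| ≤ b * (E x y : ℝ)) →
        (3 ≤ n → 8 / 7 * a ≤ b) ∧ (4 ≤ n → 5 / 4 * a ≤ b) ∧ (5 ≤ n → 24 / 19 * a ≤ b) ∧
          (6 ≤ n → 9 / 7 * a ≤ b) := by
  refine ⟨ed, ⟨ed_nil_left, ed_nil_right, fun s t x y => ed_cons_cons s t x y⟩, ?_, ?_⟩
  · rintro E' ⟨hnil_left, hnil_right, hcons⟩
    funext x
    induction x with
    | nil => funext y; rw [hnil_left, ed_nil_left]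
    | cons s x ihx =>
      funext y
      induction y with
      | nil => rw [hnil_right, ed_nil_right]
      | cons t y ihy => rw [hcons, ed_cons_cons, ihx, ihy]
  · intro n f a b hsum hf
    have h1 : (0 : ℝ) < (1 : ENNReal).toReal := by simp
    have mem : ∀ x : List Bool, Memℓp (f x) 1 := by
      intro x
      rw [memℓp_gen_iff h1]
      simpa using hsum x
    have hnorm : ∀ x y : List Bool,
        ‖(⟨f x, mem x⟩ : lp (fun _ : ℕ => ℝ) 1) - ⟨f y, mem y⟩‖ = ∑' i : ℕ, |f x i - f y i| := by
      intro x y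
      rw [lp.norm_eq_tsum_rpow h1]
      simp
      rfl
    refine Vale.Agent.Results.P238.SmallCubeBounds.result n
      (fun x => (⟨f x, mem x⟩ : lp (fun _ : ℕ => ℝ) 1)) a b (fun x y hx hy => ?_)
    rw [hnorm x y]
    exact hf x y hx hy

end Vale.Agent.Helper6.P238Plain
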