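import Vale.Agent.Helper7.P302.Defs

/-!
# P302: assembling the final statement from the LP upper bound and the packing lower bound
-/

namespace Vale.Agent.Helper6.P302Final

open Vale.Agent.Helper7.P302 Finset

/-- All scaled sizes are positive and at most the capacity. -/
theorem items_range : ∀ i : Fin 50, 0 < itemsL.getD i.1 0 ∧ itemsL.getD i.1 0 ≤ 300000 := by
  decide

/-- The sizes of the instance lie in `(0, 1]`. -/
theorem inst_range : ∀ i : Fin 50, 0 < inst i ∧ inst i ≤ 1 := by
  intro i
  obtain ⟨h1, h2⟩ := items_range i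
  have h1q : (0 : ℚ) < (itemsL.getD i.1 0 : ℚ) := by exact_mod_cast h1
  have h2q : (itemsL.getD i.1 0 : ℚ) ≤ 300000 := by exact_mod_cast h2
  refine ⟨?_, ?_⟩
  · unfold inst
    positivity
  · unfold inst
    rw [div_le_one (by norm_num)]
    exact h2q

/-- Putting every item into its own bin is a packing. -/
theorem trivial_packing : IsPacking inst 50 (fun i => i) := by
  intro b
  have : univ.filter (fun i : Fin 50 => i = b) = {b} := by
    ext i
    simp
  rw [this, sum_singleton]
  exact (inst_range b).2

/-- `OPT` is at least any lower bound valid for all packings. -/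
theorem opt_ge_of (N : ℕ) (h : ∀ (m : ℕ) (f : Fin 50 → Fin m), IsPacking inst m f → N ≤ m) :
    N ≤ OPT inst := by
  have hne : {m : ℕ | ∃ f : Fin 50 → Fin m, IsPacking inst m f}.Nonempty :=
    ⟨50, fun i => i, trivial_packing⟩
  obtain ⟨f, hf⟩ := Nat.sInf_mem hne
  exact h _ f hf

/-- The final statement from its two halves. -/
theorem final_of (hlp : LP inst ≤ 5039 / 300)
    (hopt : ∀ (m : ℕ) (f : Fin 50 → Fin m), IsPacking inst m f → 18 ≤ m) :
    (∀ i, 0 < inst i ∧ inst i ≤ 1) ∧ (OPT inst : ℝ) - LP inst ≥ 361 / 300 := by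
  refine ⟨inst_range, ?_⟩
  have h18 : (18 : ℝ) ≤ (OPT inst : ℝ) := by exact_mod_cast opt_ge_of 18 hopt
  linarith

end Vale.Agent.Helper6.P302Final
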