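import Vale.Agent.Helper7.P302.Defs3

/-!
# P302: assembling the final statement for the third instance from its two halves
-/

namespace Vale.Agent.Helper6.P302Final3

open Vale.Agent.Helper7.P302 Finset

/-- All scaled sizes are positive and at most the capacity. -/
theorem items_range3 : ∀ i : Fin 51, 0 < itemsL3.getD i.1 0 ∧ itemsL3.getD i.1 0 ≤ 1950000 := by
  decide

/-- The sizes of the instance lie in `(0, 1]`. -/
theorem inst_range3 : ∀ i : Fin 51, 0 < inst3 i ∧ inst3 i ≤ 1 := by
  intro i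
  obtain ⟨h1, h2⟩ := items_range3 i
  have h1q : (0 : ℚ) < (itemsL3.getD i.1 0 : ℚ) := by exact_mod_cast h1
  have h2q : (itemsL3.getD i.1 0 : ℚ) ≤ 1950000 := by exact_mod_cast h2
  refine ⟨?_, ?_⟩
  · unfold inst3
    positivity
  · unfold inst3
    rw [div_le_one (by norm_num)]
    exact h2q

/-- Putting every item into its own bin is a packing. -/
theorem trivial_packing3 : IsPacking inst3 51 (fun i => i) := by
  intro b
  have : univ.filter (fun i : Fin 51 => i = b) = {b} := by
    ext i
    simp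
  rw [this, sum_singleton]
  exact (inst_range3 b).2

/-- `OPT` is at least any lower bound valid for all packings. -/
theorem opt_ge_of3 (N : ℕ) (h : ∀ (m : ℕ) (f : Fin 51 → Fin m), IsPacking inst3 m f → N ≤ m) :
    N ≤ OPT inst3 := by
  have hne : {m : ℕ | ∃ f : Fin 51 → Fin m, IsPacking inst3 m f}.Nonempty :=
    ⟨51, fun i => i, trivial_packing3⟩
  obtain ⟨f, hf⟩ := Nat.sInf_mem hne
  exact h _ f hf

/-- The final statement from its two halves. -/
theorem final_of3 (hlp : LP inst3 ≤ 20131 / 1200)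
    (hopt : ∀ (m : ℕ) (f : Fin 51 → Fin m), IsPacking inst3 m f → 18 ≤ m) :
    (∀ i, 0 < inst3 i ∧ inst3 i ≤ 1) ∧ (OPT inst3 : ℝ) - LP inst3 ≥ 1469 / 1200 := by
  refine ⟨inst_range3, ?_⟩
  have h18 : (18 : ℝ) ≤ (OPT inst3 : ℝ) := by exact_mod_cast opt_ge_of3 18 hopt
  linarith

end Vale.Agent.Helper6.P302Final3
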