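import Vale.Agent.Helper7.P302.Defs

/-!
# P302: a generic certificate lemma for upper bounds on the configuration LP

The instance is given by a list `items` of scaled natural sizes and a capacity `cap`; the
certificate is a list of pairs (weight numerator, list of scaled sizes of a configuration) with a
common denominator `den`.
-/

namespace Vale.Agent.Helper6.P302LP

open Vale.Agent.Helper7.P302 Finset

/-- Sum over the positions of a list. -/
theorem sum_fin_get {α M : Type*} [AddCommMonoid M] (l : List α) (g : α → M) :
    ∑ j : Fin l.length, g (l.get j) = (l.map g).sum := by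
  induction l with
  | nil => simp
  | cons x l ih =>
    show ∑ j : Fin (l.length + 1), g ((x :: l).get j) = _
    rw [Fin.sum_univ_succ]
    simp only [List.map_cons, List.sum_cons]
    rw [← ih]
    rfl

/-- Number of positions of a list carrying a given value. -/
theorem card_filter_get (l : List ℕ) (s : ℕ) :
    (univ.filter (fun i : Fin l.length => l.get i = s)).card = l.count s := by
  rw [Finset.card_filter, sum_fin_get l (fun x => if x = s then 1 else 0)]
  induction l with
  | nil => simp
  | cons x l ih =>
    simp only [List.map_cons, List.sum_cons, List.count_cons, ih]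
    by_cases h : x = s
    · simp [h, add_comm]
    · simp [h]

/-- The configuration function of a list of scaled sizes. -/
def cfg (cap : ℕ) (l : List ℕ) (σ : ℚ) : ℕ :=
  l.countP (fun s : ℕ => decide ((s : ℚ) / cap = σ))

theorem cfg_scaled (cap : ℕ) (hcap : 0 < cap) (l : List ℕ) (t : ℕ) :
    cfg cap l ((t : ℚ) / cap) = l.count t := by
  unfold cfg
  rw [List.count_eq_countP]
  apply List.countP_congr
  intro x _
  have hc : (cap : ℚ) ≠ 0 := by exact_mod_cast hcap.ne'
  simp only [decide_eq_true_eq, beq_iff_eq]
  constructor
  · intro h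
    have := (div_left_inj' hc).1 h
    exact_mod_cast this
  · intro h
    rw [h]

/-- Total size of a configuration given by a list. -/
theorem cfg_total (cap : ℕ) (S : Finset ℚ) (l : List ℕ)
    (hl : ∀ s ∈ l, (s : ℚ) / cap ∈ S) :
    ∑ σ ∈ S, σ * (cfg cap l σ : ℚ) = (l.sum : ℚ) / cap := by
  induction l with
  | nil => simp [cfg]
  | cons x l ih =>
    have hx : (x : ℚ) / cap ∈ S := hl x (by simp)
    have ih2 := ih (fun s hs => hl s (by simp [hs]))
    have e : ∀ σ, (cfg cap (x :: l) σ : ℚ) =
        (cfg cap l σ : ℚ) + (if (x : ℚ) / cap = σ then 1 else 0) := by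
      intro σ
      unfold cfg
      rw [List.countP_cons]
      by_cases h : (x : ℚ) / cap = σ
      · simp [h]
      · simp [h]
    simp only [e, mul_add, Finset.sum_add_distrib, ih2]
    simp only [mul_ite, mul_one, mul_zero]
    rw [Finset.sum_ite_eq S ((x : ℚ) / cap) (fun σ => σ)]
    simp only [hx, if_true, List.sum_cons, Nat.cast_add]
    ring

/-- The certificate lemma. -/
theorem lp_le_of_cert (items : List ℕ) (cap den : ℕ) (hcap : 0 < cap) (hden : 0 < den)
    (cert : List (ℕ × List ℕ))
    (hmem : ∀ wl ∈ cert, ∀ s ∈ wl.2, s ∈ items)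
    (hsize : ∀ wl ∈ cert, wl.2.sum ≤ cap)
    (hcov : ∀ s ∈ items, den * items.count s ≤ (cert.map (fun wl => wl.2.count s * wl.1)).sum) :
    LP (fun i : Fin items.length => (items.get i : ℚ) / cap) ≤
      ((cert.map Prod.fst).sum : ℝ) / den := by
  set a : Fin items.length → ℚ := fun i => (items.get i : ℚ) / cap with ha
  have hcapq : (cap : ℚ) ≠ 0 := by exact_mod_cast hcap.ne'
  have hcappos : (0 : ℚ) < cap := by exact_mod_cast hcap
  have hdenpos : (0 : ℝ) < den := by exact_mod_cast hden
  -- every scaled size of the list is a size of the instance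
  have hS : ∀ s ∈ items, (s : ℚ) / cap ∈ sizeSet a := by
    intro s hs
    obtain ⟨i, hi⟩ := List.mem_iff_get.1 hs
    unfold sizeSet
    refine Finset.mem_image.2 ⟨i, Finset.mem_univ _, ?_⟩
    show (items.get i : ℚ) / cap = (s : ℚ) / cap
    rw [hi]
  -- the fractional solution
  let c : Fin cert.length → ℚ → ℕ := fun j => cfg cap (cert.get j).2
  let z : Fin cert.length → ℝ := fun j => ((cert.get j).1 : ℝ) / den
  have hsol : IsFracSol a cert.length c z := by
    refine ⟨fun j => ⟨⟨?_, ?_⟩, ?_⟩, ?_⟩
    · intro σ hσ
      by_contra hne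
      have hpos : 0 < cfg cap (cert.get j).2 σ := Nat.pos_of_ne_zero hne
      unfold cfg at hpos
      rw [List.countP_pos_iff] at hpos
      obtain ⟨s, hs, hsσ⟩ := hpos
      simp only [decide_eq_true_eq] at hsσ
      apply hσ
      rw [← hsσ]
      exact hS s (hmem _ (List.get_mem cert j) s hs)
    · have := cfg_total cap (sizeSet a) (cert.get j).2
        (fun s hs => hS s (hmem _ (List.get_mem cert j) s hs))
      show ∑ σ ∈ sizeSet a, σ * (cfg cap (cert.get j).2 σ : ℚ) ≤ 1
      rw [this, div_le_one hcappos]
      exact_mod_cast hsize _ (List.get_mem cert j)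
    · show (0 : ℝ) ≤ ((cert.get j).1 : ℝ) / den
      positivity
    · intro σ hσ
      unfold sizeSet at hσ
      obtain ⟨i, _, rfl⟩ := Finset.mem_image.1 hσ
      have hm : mult a (a i) = items.count (items.get i) := by
        unfold mult
        rw [← card_filter_get]
        congr 1
        ext i2
        simp only [Finset.mem_filter, Finset.mem_univ, true_and, ha]
        constructor
        · intro h
          have := (div_left_inj' hcapq).1 h
          exact_mod_cast this
        · intro h
          rw [h]
      have hc : ∀ j : Fin cert.length, (c j (a i) : ℝ) * z j =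
          (((cert.get j).2.count (items.get i) * (cert.get j).1 : ℕ) : ℝ) / den := by
        intro j
        show (cfg cap (cert.get j).2 ((items.get i : ℚ) / cap) : ℝ) * (((cert.get j).1 : ℝ) / den)
          = _
        rw [cfg_scaled cap hcap]
        push_cast
        ring
      rw [hm, Finset.sum_congr rfl (fun j _ => hc j), ← Finset.sum_div, le_div_iff₀ hdenpos]
      have h1 := hcov (items.get i) (List.get_mem items i)
      have h2 := sum_fin_get cert (fun wl => ((wl.2.count (items.get i) * wl.1 : ℕ) : ℝ))
      rw [h2]
      have h3 : ((cert.map (fun wl => ((wl.2.count (items.get i) * wl.1 : ℕ) : ℝ))).sum) =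
          (((cert.map (fun wl => wl.2.count (items.get i) * wl.1)).sum : ℕ) : ℝ) := by
        rw [Nat.cast_list_sum, List.map_map]
        rfl
      rw [h3]
      have : ((items.count (items.get i) * den : ℕ) : ℝ) ≤
          (((cert.map (fun wl => wl.2.count (items.get i) * wl.1)).sum : ℕ) : ℝ) := by
        exact_mod_cast (by rw [Nat.mul_comm]; exact h1)
      exact_mod_cast this
  have hval : ((cert.map Prod.fst).sum : ℝ) / den = ∑ j, z j := by
    show _ = ∑ j : Fin cert.length, ((cert.get j).1 : ℝ) / den
    rw [← Finset.sum_div, sum_fin_get cert (fun wl => (wl.1 : ℝ))]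
    congr 1
    rw [Nat.cast_list_sum, List.map_map]
    rfl
  unfold LP
  apply csInf_le
  · refine ⟨0, ?_⟩
    rintro v ⟨k, c2, z2, h2, rfl⟩
    exact Finset.sum_nonneg (fun j _ => (h2.1 j).2)
  · exact ⟨cert.length, c, z, hsol, hval⟩

/-- The certificate lemma for an instance indexed by `Fin n` and read off with `getD`. -/
theorem lp_le_of_cert' (n : ℕ) (items : List ℕ) (hn : items.length = n) (cap den : ℕ)
    (hcap : 0 < cap) (hden : 0 < den) (cert : List (ℕ × List ℕ))
    (hmem : ∀ wl ∈ cert, ∀ s ∈ wl.2, s ∈ items)
    (hsize : ∀ wl ∈ cert, wl.2.sum ≤ cap)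
    (hcov : ∀ s ∈ items, den * items.count s ≤ (cert.map (fun wl => wl.2.count s * wl.1)).sum) :
    LP (fun i : Fin n => (items.getD i.1 0 : ℚ) / cap) ≤
      ((cert.map Prod.fst).sum : ℝ) / den := by
  subst hn
  have h := lp_le_of_cert items cap den hcap hden cert hmem hsize hcov
  have e : (fun i : Fin items.length => (items.getD i.1 0 : ℚ) / cap) =
      (fun i : Fin items.length => (items.get i : ℚ) / cap) := by
    funext i
    rw [List.getD_eq_getElem (hn := i.2)]
    rfl
  rw [e]
  exact h

end Vale.Agent.Helper6.P302LP
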