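import Vale.Agent.Helper6.P302LP

/-!
# P302: the LP upper bound for the first instance (`inst`, 50 items)
-/

namespace Vale.Agent.Helper6.P302LP1

open Vale.Agent.Helper7.P302

/-- The fractional solution: weight numerators (denominator `300`) and configurations. -/
def cert1 : List (ℕ × List ℕ) := [
  (24, [40001, 40143, 219855]),
  (276, [40001, 40411, 219582]),
  (72, [40036, 40086, 219866]),
  (228, [40036, 40086, 219871]),
  (72, [40041, 40085, 219871]),
  (228, [40041, 40144, 219813]),
  (216, [40060, 40070, 219866]),
  (84, [40060, 40085, 219855]),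
  (150, [40068, 40068, 219864]),
  (192, [40070, 40070, 219855]),
  (150, [40078, 40082, 219840]),
  (150, [40078, 40084, 219838]),
  (150, [40080, 40080, 219840]),
  (150, [40081, 40081, 219838]),
  (150, [40082, 40084, 219834]),
  (150, [40083, 40083, 219834]),
  (72, [40085, 40085, 219813]),
  (150, [40133, 40139, 219728]),
  (150, [40133, 40143, 219724]),
  (150, [40136, 40136, 219728]),
  (150, [40138, 40138, 219724]),
  (78, [40139, 40143, 219717]),
  (72, [40139, 40144, 219717]),
  (150, [40141, 40141, 219717]),
  (24, [40143, 40143, 219582]),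
  (150, [40400, 40406, 219193]),
  (150, [40400, 40410, 219190]),
  (150, [40403, 40403, 219193]),
  (150, [40405, 40405, 219190]),
  (150, [40406, 40410, 219183]),
  (150, [40408, 40408, 219183]),
  (6, [40411, 40411, 40411, 40411, 136000]),
  (72, [40817, 40817, 40817, 40817, 136000]),
  (150, [40817, 126000, 126000]),
  (150, [40817, 219864]),
  (12, [40817, 219866]),
  (200, [96000, 96000, 96000]),
  (111, [136000, 136000])]

theorem cert1_mem : ∀ wl ∈ cert1, ∀ s ∈ wl.2, s ∈ itemsL := by decide

theorem cert1_size : ∀ wl ∈ cert1, wl.2.sum ≤ 300000 := by decide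

theorem cert1_cov : ∀ s ∈ itemsL,
    300 * itemsL.count s ≤ (cert1.map (fun wl => wl.2.count s * wl.1)).sum := by decide

theorem cert1_total : (cert1.map Prod.fst).sum = 5039 := by decide

/-- The configuration LP value of the first instance is at most `5039 / 300`. -/
theorem lp_le : LP inst ≤ 5039 / 300 := by
  have h := Vale.Agent.Helper6.P302LP.lp_le_of_cert' 50 itemsL (by decide) 300000 300
    (by norm_num) (by norm_num) cert1 cert1_mem cert1_size cert1_cov
  rw [cert1_total] at h
  have e : inst = (fun i : Fin 50 => (itemsL.getD i.1 0 : ℚ) / ((300000 : ℕ) : ℚ)) := by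
    funext i
    unfold inst
    norm_num
  rw [e]
  calc _ ≤ ((5039 : ℕ) : ℝ) / ((300 : ℕ) : ℝ) := h
    _ = 5039 / 300 := by norm_num

end Vale.Agent.Helper6.P302LP1
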