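import Vale.Agent.Helper6.P302LP
import Vale.Agent.Helper7.P302.Defs2

/-!
# P302: the LP upper bound for the second instance (`inst2`, 51 items)
-/

namespace Vale.Agent.Helper6.P302LP2

open Vale.Agent.Helper7.P302

/-- The fractional solution: weight numerators (denominator `800`) and configurations. -/
def cert2 : List (ℕ × List ℕ) := [
  (64, [160001, 160143, 919855]),
  (736, [160001, 160411, 919582]),
  (192, [160036, 160086, 919866]),
  (608, [160036, 160086, 919871]),
  (192, [160041, 160085, 919871]),
  (608, [160041, 160144, 919813]),
  (576, [160060, 160070, 919866]),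
  (224, [160060, 160085, 919855]),
  (400, [160068, 160068, 919864]),
  (512, [160070, 160070, 919855]),
  (400, [160078, 160082, 919840]),
  (400, [160078, 160084, 919838]),
  (400, [160080, 160080, 919840]),
  (400, [160081, 160081, 919838]),
  (400, [160082, 160084, 919834]),
  (400, [160083, 160083, 919834]),
  (192, [160085, 160085, 919813]),
  (400, [160133, 160139, 919728]),
  (400, [160133, 160143, 919724]),
  (400, [160136, 160136, 919728]),
  (400, [160138, 160138, 919724]),
  (208, [160139, 160143, 919717]),
  (192, [160139, 160144, 919717]),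
  (400, [160141, 160141, 919717]),
  (64, [160143, 160143, 919582]),
  (400, [160400, 160406, 919193]),
  (400, [160400, 160410, 919190]),
  (400, [160403, 160403, 919193]),
  (400, [160405, 160405, 919190]),
  (400, [160406, 160410, 919183]),
  (400, [160408, 160408, 919183]),
  (32, [160411, 160411, 435000, 435000]),
  (258, [160817, 160817, 160817, 160817, 160817, 435000]),
  (139, [160817, 160817, 435000, 435000]),
  (400, [160817, 535000, 535000]),
  (400, [160817, 919864]),
  (32, [160817, 919866]),
  (200, [395000, 395000, 435000]),
  (400, [395000, 415000, 415000])]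

theorem cert2_mem : ∀ wl ∈ cert2, ∀ s ∈ wl.2, s ∈ itemsL2 := by decide

theorem cert2_size : ∀ wl ∈ cert2, wl.2.sum ≤ 1240000 := by decide

theorem cert2_cov : ∀ s ∈ itemsL2,
    800 * itemsL2.count s ≤ (cert2.map (fun wl => wl.2.count s * wl.1)).sum := by decide

theorem cert2_total : (cert2.map Prod.fst).sum = 13429 := by decide

/-- The configuration LP value of the second instance is at most `13429 / 800`. -/
theorem lp_le2 : LP inst2 ≤ 13429 / 800 := by
  have h := Vale.Agent.Helper6.P302LP.lp_le_of_cert' 51 itemsL2 (by decide) 1240000 800
    (by norm_num) (by norm_num) cert2 cert2_mem cert2_size cert2_cov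
  rw [cert2_total] at h
  have e : inst2 = (fun i : Fin 51 => (itemsL2.getD i.1 0 : ℚ) / ((1240000 : ℕ) : ℚ)) := by
    funext i
    unfold inst2
    norm_num
  rw [e]
  calc _ ≤ ((13429 : ℕ) : ℝ) / ((800 : ℕ) : ℝ) := h
    _ = 13429 / 800 := by norm_num

end Vale.Agent.Helper6.P302LP2
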