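import Vale.Agent.Helper6.P302LP
import Vale.Agent.Helper7.P302.Defs3

/-!
# P302: the LP upper bound for the third instance (`inst3`, 51 items)
-/

namespace Vale.Agent.Helper6.P302LP3

open Vale.Agent.Helper7.P302

/-- The fractional solution: weight numerators (denominator `1200`) and configurations. -/
def cert3 : List (ℕ × List ℕ) := [
  (96, [250001, 250143, 1449855]),
  (1104, [250001, 250411, 1449582]),
  (288, [250036, 250086, 1449866]),
  (912, [250036, 250086, 1449871]),
  (288, [250041, 250085, 1449871]),
  (912, [250041, 250144, 1449813]),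
  (864, [250060, 250070, 1449866]),
  (336, [250060, 250085, 1449855]),
  (600, [250068, 250068, 1449864]),
  (768, [250070, 250070, 1449855]),
  (600, [250078, 250082, 1449840]),
  (600, [250078, 250084, 1449838]),
  (600, [250080, 250080, 1449840]),
  (600, [250081, 250081, 1449838]),
  (600, [250082, 250084, 1449834]),
  (600, [250083, 250083, 1449834]),
  (288, [250085, 250085, 1449813]),
  (600, [250133, 250139, 1449728]),
  (600, [250133, 250143, 1449724]),
  (600, [250136, 250136, 1449728]),
  (600, [250138, 250138, 1449724]),
  (312, [250139, 250143, 1449717]),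
  (288, [250139, 250144, 1449717]),
  (600, [250141, 250141, 1449717]),
  (96, [250143, 250143, 1449582]),
  (600, [250400, 250406, 1449193]),
  (600, [250400, 250410, 1449190]),
  (600, [250403, 250403, 1449193]),
  (600, [250405, 250405, 1449190]),
  (600, [250406, 250410, 1449183]),
  (600, [250408, 250408, 1449183]),
  (48, [250411, 250411, 695000, 695000]),
  (462, [250817, 250817, 250817, 250817, 250817, 695000]),
  (21, [250817, 250817, 695000, 695000]),
  (600, [250817, 845000, 845000]),
  (600, [250817, 1449864]),
  (48, [250817, 1449866]),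
  (600, [620000, 620000, 695000]),
  (400, [645000, 645000, 645000])]

theorem cert3_mem : ∀ wl ∈ cert3, ∀ s ∈ wl.2, s ∈ itemsL3 := by decide

theorem cert3_size : ∀ wl ∈ cert3, wl.2.sum ≤ 1950000 := by decide

theorem cert3_cov : ∀ s ∈ itemsL3,
    1200 * itemsL3.count s ≤ (cert3.map (fun wl => wl.2.count s * wl.1)).sum := by decide

theorem cert3_total : (cert3.map Prod.fst).sum = 20131 := by decide

/-- The configuration LP value of the third instance is at most `20131 / 1200`. -/
theorem lp_le3 : LP inst3 ≤ 20131 / 1200 := by
  have h := Vale.Agent.Helper6.P302LP.lp_le_of_cert' 51 itemsL3 (by decide) 1950000 1200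
    (by norm_num) (by norm_num) cert3 cert3_mem cert3_size cert3_cov
  rw [cert3_total] at h
  have e : inst3 = (fun i : Fin 51 => (itemsL3.getD i.1 0 : ℚ) / ((1950000 : ℕ) : ℚ)) := by
    funext i
    unfold inst3
    norm_num
  rw [e]
  calc _ ≤ ((20131 : ℕ) : ℝ) / ((1200 : ℕ) : ℝ) := h
    _ = 20131 / 1200 := by norm_num

end Vale.Agent.Helper6.P302LP3
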