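import Vale.Agent.Helper7.P302.Check

/-!
# P302: soundness of the leaf check of the branch-and-bound certificate checker
-/

namespace Vale.Agent.Helper6.P302Leaf

open Vale.Agent.Helper7.P302

/-- A left fold with `min` is below every element. -/
theorem foldl_min_le : ∀ (l : List ℕ) (w x : ℕ), x ∈ w :: l → l.foldl min w ≤ x := by
  intro l
  induction l with
  | nil =>
    intro w x hx
    simp at hx
    simp [hx]
  | cons y l ih =>
    intro w x hx
    simp only [List.foldl_cons]
    simp only [List.mem_cons] at hx
    rcases hx with rfl | rfl | hx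
    · exact le_trans (ih (min x y) (min x y) (by simp)) (min_le_left _ _)
    · exact le_trans (ih (min w x) (min w x) (by simp)) (min_le_right _ _)
    · exact ih (min w y) x (by simp [hx])

/-- `minFit` is below the weight of every fitting slot. -/
theorem minFit_le (SV : List (ℕ × ℕ)) (s : ℕ) (cv : ℕ × ℕ) (hcv : cv ∈ SV) (hs : s ≤ cv.1) :
    minFit SV s ≤ cv.2 := by
  have hmem : cv.2 ∈ (SV.filter fun cv => decide (s ≤ cv.1)).map Prod.snd := by
    apply List.mem_map_of_mem
    simp [List.mem_filter, hcv, hs]
  unfold minFit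
  generalize (SV.filter fun cv => decide (s ≤ cv.1)).map Prod.snd = l at hmem
  cases l with
  | nil => simp at hmem
  | cons w l => exact foldl_min_le l w cv.2 hmem

/-- Lifting a permutation through a map. -/
theorem perm_map_lift {α β : Type*} (f : α → β) {l l2 : List β} (h : l.Perm l2) :
    ∀ Z : List α, l2 = Z.map f → ∃ W : List α, W.Perm Z ∧ W.map f = l := by
  induction h with
  | nil =>
    intro Z hZ
    exact ⟨Z, List.Perm.refl _, hZ.symm⟩
  | cons x _ ih =>
    intro Z hZ
    cases Z with
    | nil => simp at hZ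
    | cons z Z =>
      simp only [List.map_cons, List.cons.injEq] at hZ
      obtain ⟨W, hW, hWf⟩ := ih Z hZ.2
      exact ⟨z :: W, hW.cons z, by simp [hWf, hZ.1]⟩
  | swap x y l =>
    intro Z hZ
    cases Z with
    | nil => simp at hZ
    | cons z Z =>
      cases Z with
      | nil => simp at hZ
      | cons z2 Z =>
        simp only [List.map_cons, List.cons.injEq] at hZ
        exact ⟨z2 :: z :: Z, List.Perm.swap _ _ _, by simp [hZ.1, hZ.2.1, hZ.2.2]⟩
  | trans _ _ ih1 ih2 =>
    intro Z hZ
    obtain ⟨W2, hW2, hW2f⟩ := ih2 Z hZ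
    obtain ⟨W1, hW1, hW1f⟩ := ih1 W2 hW2f.symm
    exact ⟨W1, hW1.trans hW2, hW1f⟩

/-- Lifting a sub-permutation through a map. -/
theorem subperm_map_lift {α β : Type*} (f : α → β) (l : List β) (Z : List α)
    (h : l.Subperm (Z.map f)) : ∃ W : List α, W.map f = l ∧ W.Subperm Z := by
  obtain ⟨l1, hl1, hsub⟩ := h
  rw [List.sublist_map_iff] at hsub
  obtain ⟨Z1, hZ1, rfl⟩ := hsub
  obtain ⟨W, hW, hWf⟩ := perm_map_lift f hl1.symm Z1 rfl
  exact ⟨W, hWf, ⟨Z1, hW.symm, hZ1⟩⟩

/-- Sums of natural numbers are monotone along sub-permutations. -/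
theorem subperm_sum_le {α : Type*} (g : α → ℕ) (W Z : List α) (h : W.Subperm Z) :
    (W.map g).sum ≤ (Z.map g).sum := by
  obtain ⟨l1, hl1, hsub⟩ := h
  have h1 : (l1.map g).sum = (W.map g).sum := (hl1.map g).sum_eq
  have h2 : (l1.map g).sum ≤ (Z.map g).sum :=
    (hsub.map g).sum_le_sum (fun a _ => Nat.zero_le a)
  omega

/-- `allPairs` as a pairwise statement. -/
theorem allPairs_iff (slots : List ℕ) (SV : List (ℕ × ℕ)) (D : ℕ) (Z : List (ℕ × ℕ)) :
    allPairs slots SV D Z = true ↔ Z.Pairwise (fun x y => pairOK slots SV D x y = true) := by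
  induction Z with
  | nil => simp [allPairs]
  | cons x xs ih =>
    simp only [allPairs, Bool.and_eq_true, List.all_eq_true, List.pairwise_cons, ih]

theorem pairOK_symm (slots : List ℕ) (SV : List (ℕ × ℕ)) (D : ℕ) (x y : ℕ × ℕ) :
    pairOK slots SV D x y = pairOK slots SV D y x := by
  unfold pairOK
  rw [add_comm x.1 y.1, add_comm x.2 y.2]

/-- The pairs of `M`, read off with their weights, satisfy the weight inequality. -/
theorem pairs_bound (slots : List ℕ) (SV : List (ℕ × ℕ)) (D : ℕ) :
    ∀ (M W : List (ℕ × ℕ)),
      W.map Prod.fst = (M.flatMap fun x => [x.1, x.2]) →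
      W.Pairwise (fun x y => pairOK slots SV D x y = true) →
      (∀ x ∈ M, fits slots (x.1 + x.2) = true) →
      D * M.length ≤ (W.map Prod.snd).sum + (M.map fun x => minFit SV (x.1 + x.2)).sum := by
  intro M
  induction M with
  | nil =>
    intro W _ _ _
    simp
  | cons x M ih =>
    intro W hW hP hfit
    cases W with
    | nil => simp at hW
    | cons w1 W =>
      cases W with
      | nil => simp at hW
      | cons w2 W =>
        simp only [List.map_cons, List.flatMap_cons, List.cons_append, List.nil_append,
          List.cons.injEq] at hW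
        obtain ⟨h1, h2, h3⟩ := hW
        rw [List.pairwise_cons] at hP
        obtain ⟨hP1, hP2⟩ := hP
        rw [List.pairwise_cons] at hP2
        have hr := hP1 w2 (by simp)
        have hf := hfit x (by simp)
        unfold pairOK at hr
        rw [h1, h2, hf] at hr
        simp only [Bool.not_true, Bool.false_or, decide_eq_true_eq] at hr
        have := ih W h3 hP2.2 (fun y hy => hfit y (by simp [hy]))
        simp only [List.length_cons, List.map_cons, List.sum_cons]
        rw [Nat.mul_succ]
        omega

/-- The slot side: the `minFit` weights of the sums are dominated by the weights of the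
slots they occupy. -/
theorem slots_bound (SV : List (ℕ × ℕ)) :
    ∀ (LA B : List (ℕ × ℕ)), B.map Prod.fst = LA.map Prod.snd → (∀ b ∈ B, b ∈ SV) →
      (∀ x ∈ LA, x.1 ≤ x.2) →
      (LA.map fun x => minFit SV x.1).sum ≤ (B.map Prod.snd).sum := by
  intro LA
  induction LA with
  | nil =>
    intro B _ _ _
    simp
  | cons a LA ih =>
    intro B hB hmem hle
    cases B with
    | nil => simp at hB
    | cons b B =>
      simp only [List.map_cons, List.cons.injEq] at hB
      have h1 : minFit SV a.1 ≤ b.2 :=
        minFit_le SV a.1 b (hmem b (by simp)) (by rw [hB.1]; exact hle a (by simp))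
      have h2 := ih B hB.2 (fun c hc => hmem c (by simp [hc])) (fun y hy => hle y (by simp [hy]))
      simp only [List.map_cons, List.sum_cons]
      omega

/-- Soundness of the leaf check. -/
theorem leaf_sound (slots : List ℕ) (T : ℕ) (R F : List ℕ) (D : ℕ) (u v : List ℕ)
    (h : leafOK slots T R F D u v = true) (M : List (ℕ × ℕ)) (hM : Valid slots R F M) :
    F.length + M.length ≤ T := by
  unfold leafOK at h
  simp only [Bool.and_eq_true, decide_eq_true_eq] at h
  obtain ⟨⟨⟨hu, hv⟩, hall⟩, hlt⟩ := h
  obtain ⟨hU, A, hA1, hA2, hA3⟩ := hM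
  -- the positives with their weights
  have hZ1 : (R.zip u).map Prod.fst = R := List.map_fst_zip (by omega)
  have hZ2 : (R.zip u).map Prod.snd = u := List.map_snd_zip (by omega)
  have hS1 : (slots.zip v).map Prod.fst = slots := List.map_fst_zip (by omega)
  have hS2 : (slots.zip v).map Prod.snd = v := List.map_snd_zip (by omega)
  rw [Multiset.coe_le, ← hZ1] at hU
  obtain ⟨W, hW1, hW2⟩ := subperm_map_lift Prod.fst _ _ hU
  have hWP : W.Pairwise (fun x y => pairOK slots (slots.zip v) D x y = true) := by
    obtain ⟨l1, hl1, hsub⟩ := hW2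
    have := ((allPairs_iff slots (slots.zip v) D (R.zip u)).1 hall).sublist hsub
    exact (hl1.pairwise_iff (fun {x y} hxy => by rw [pairOK_symm]; exact hxy)).1 this
  have hWsum : (W.map Prod.snd).sum ≤ u.sum := by
    have := subperm_sum_le Prod.snd W (R.zip u) hW2
    rwa [hZ2] at this
  -- the slots
  obtain ⟨LA, hLA⟩ : ∃ LA : List (ℕ × ℕ), (LA : Multiset (ℕ × ℕ)) = A := Quot.exists_rep A
  subst hLA
  simp only [Multiset.map_coe] at hA1 hA2
  · rw [Multiset.coe_le, ← hS1] at hA2
    obtain ⟨B, hB1, hB2⟩ := subperm_map_lift Prod.fst _ _ hA2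
    have hBsum : (B.map Prod.snd).sum ≤ v.sum := by
      have := subperm_sum_le Prod.snd B (slots.zip v) hB2
      rwa [hS2] at this
    have hLAle : ∀ x ∈ LA, x.1 ≤ x.2 := fun x hx => hA3 x (by simpa using hx)
    have hslot := slots_bound (slots.zip v) LA B hB1 (fun b hb => hB2.subset hb) hLAle
    -- every pair sum fits
    have hfit : ∀ x ∈ M, fits slots (x.1 + x.2) = true := by
      intro x hx
      have hmem : x.1 + x.2 ∈ ((LA.map Prod.fst : List ℕ) : Multiset ℕ) := by
        rw [hA1]
        apply Multiset.mem_add.2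
        right
        rw [Multiset.mem_coe]
        exact List.mem_map.2 ⟨x, hx, rfl⟩
      rw [Multiset.mem_coe, List.mem_map] at hmem
      obtain ⟨a, ha, hax⟩ := hmem
      have ha2 : a.2 ∈ slots := by
        have : a.2 ∈ (slots.zip v).map Prod.fst :=
          hA2.subset (List.mem_map.2 ⟨a, ha, rfl⟩)
        rwa [hS1] at this
      unfold fits
      rw [List.any_eq_true]
      exact ⟨a.2, ha2, by simpa [← hax] using hLAle a ha⟩
    have hpairs := pairs_bound slots (slots.zip v) D M W hW1 hWP hfit
    -- the sums of the minFit weights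
    have hsum : (LA.map fun x => minFit (slots.zip v) x.1).sum =
        (F.map (minFit (slots.zip v))).sum +
          (M.map fun x => minFit (slots.zip v) (x.1 + x.2)).sum := by
      have := congrArg (fun s : Multiset ℕ => (s.map (minFit (slots.zip v))).sum) hA1
      simp only [Multiset.map_coe, Multiset.sum_coe, Multiset.map_add, Multiset.sum_add,
        List.map_map] at this
      exact this
    by_contra hcon
    have hT : T + 1 ≤ F.length + M.length := by omega
    have hmul : D * (T + 1) ≤ D * F.length + D * M.length := by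
      rw [← Nat.mul_add]
      exact Nat.mul_le_mul_left D hT
    omega

end Vale.Agent.Helper6.P302Leaf
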