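import Mathlib
import Vale.Agent.Results.P355.ButsonCyclotomic

/-!
# P355: six is not a relative norm from the cyclotomic fields `ℚ(ζ_n)`, `n ∣ p^t + 1`

Field version of the obstruction of `P355.ButsonCyclotomic`: if a prime `p ∈ {2, 3}` does not
divide `n` and `n ∣ p^t + 1`, then no element `S = c(ζ)/d` of `ℚ(ζ_n)` satisfies
`S * conj S = 6`.  Proof by descent: from `c(ζ) c(ζ⁻¹) = 6 d²` one gets `c = Φ_n g + p c'` and
`d = p d'` with `c'(ζ) c'(ζ⁻¹) = 6 d'²`.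
-/

namespace Vale.Agent.Helper6.P355Field

open Polynomial

open Vale.Agent.Results.P355.ButsonCyclotomic

/-- One step of the descent. -/
lemma descent_step (p r : ℕ) [hp : Fact p.Prime] (hpr : p * r = 6) (hr : ¬ p ∣ r)
    (n : ℕ) (hn : 0 < n) (hpn : ¬ p ∣ n) (t : ℕ)
    (ζ : ℂ) (hζ : IsPrimitiveRoot ζ n) (c : ℤ[X]) (d : ℤ)
    (h : aeval ζ c * aeval (ζ ^ (p ^ t)) c = 6 * (d : ℂ) ^ 2) :
    ∃ (c' : ℤ[X]) (d' : ℤ), d = (p : ℤ) * d' ∧
      aeval ζ c' * aeval (ζ ^ (p ^ t)) c' = 6 * (d' : ℂ) ^ 2 := by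
  have hΦ : ∀ f : ℤ[X], aeval ζ f = 0 → cyclotomic n ℤ ∣ f := by
    intro f hf
    rw [cyclotomic_eq_minpoly hζ hn]
    exact minpoly.isIntegrallyClosed_dvd (hζ.isIntegral hn) hf
  have hroot : ∀ ξ : ℂ, IsPrimitiveRoot ξ n → aeval ξ (cyclotomic n ℤ) = 0 := by
    intro ξ hξ
    rw [aeval_def, eval₂_eq_eval_map, map_cyclotomic]
    exact hξ.isRoot_cyclotomic hn
  have hcop : Nat.Coprime (p ^ t) n :=
    Nat.Coprime.pow_left t ((Nat.Prime.coprime_iff_not_dvd hp.out).mpr hpn)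
  have hζ' : IsPrimitiveRoot (ζ ^ (p ^ t)) n := hζ.pow_of_coprime _ hcop
  have : NeZero ((n : ℕ) : ZMod p) := ⟨by
    intro h0
    exact hpn ((ZMod.natCast_eq_zero_iff n p).mp h0)⟩
  have hsq : Squarefree (cyclotomic n (ZMod p)) := (separable_cyclotomic n (ZMod p)).squarefree
  have h6 : ((6 : ℤ) : ZMod p) = 0 := by
    have : ((p * r : ℕ) : ZMod p) = 0 := by
      push_cast
      simp
    rw [hpr] at this
    exact_mod_cast this
  -- first divisibility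
  have h1 : cyclotomic n ℤ ∣ c * expand ℤ (p ^ t) c - C (6 * d ^ 2) := by
    apply hΦ
    rw [map_sub, map_mul, expand_aeval, h, aeval_C]
    simp
  have h1' : cyclotomic n (ZMod p) ∣ (c.map (Int.castRingHom (ZMod p))) ^ (p ^ t + 1) := by
    have := Polynomial.map_dvd (Int.castRingHom (ZMod p)) h1
    rw [map_cyclotomic, Polynomial.map_sub, Polynomial.map_mul, map_expand, expand_pow_zmod,
      Polynomial.map_C] at this
    simp only [eq_intCast] at this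
    have e6 : ((6 * d ^ 2 : ℤ) : ZMod p) = 0 := by
      push_cast
      have h6' : (6 : ZMod p) = 0 := by exact_mod_cast h6
      rw [h6', zero_mul]
    rw [e6] at this
    simpa [pow_succ, mul_comm] using this
  have h2 : cyclotomic n (ZMod p) ∣ c.map (Int.castRingHom (ZMod p)) :=
    (hsq.dvd_pow_iff_dvd (Nat.succ_ne_zero _)).mp h1'
  obtain ⟨gbar, hg⟩ := h2
  obtain ⟨g, rfl⟩ := Polynomial.map_surjective (Int.castRingHom (ZMod p))
    (ZMod.intCast_surjective) gbar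
  have h3 : C (p : ℤ) ∣ c - cyclotomic n ℤ * g := by
    rw [C_dvd_iff_dvd_coeff]
    intro i
    have : ((c - cyclotomic n ℤ * g).map (Int.castRingHom (ZMod p))).coeff i = 0 := by
      rw [Polynomial.map_sub, Polynomial.map_mul, map_cyclotomic, hg, sub_self]
      simp
    rw [coeff_map] at this
    exact (ZMod.intCast_zmod_eq_zero_iff_dvd _ p).mp (by simpa using this)
  obtain ⟨c', hc'⟩ := h3
  have hc : c = cyclotomic n ℤ * g + C (p : ℤ) * c' := by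
    rw [← hc']
    ring
  have e1 : aeval ζ c = (p : ℂ) * aeval ζ c' := by
    rw [hc, map_add, map_mul, map_mul, hroot ζ hζ]
    simp
  have e2 : aeval (ζ ^ (p ^ t)) c = (p : ℂ) * aeval (ζ ^ (p ^ t)) c' := by
    rw [hc, map_add, map_mul, map_mul, hroot _ hζ']
    simp
  rw [e1, e2] at h
  have hp0 : (p : ℂ) ≠ 0 := by
    exact_mod_cast hp.out.ne_zero
  have h6c : ((p : ℂ) * (r : ℂ)) = 6 := by exact_mod_cast hpr
  have h4 : (p : ℂ) * (aeval ζ c' * aeval (ζ ^ (p ^ t)) c') = (r : ℂ) * (d : ℂ) ^ 2 := by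
    apply mul_left_cancel₀ hp0
    calc (p : ℂ) * ((p : ℂ) * (aeval ζ c' * aeval (ζ ^ (p ^ t)) c'))
        = (p : ℂ) * aeval ζ c' * ((p : ℂ) * aeval (ζ ^ (p ^ t)) c') := by ring
      _ = 6 * (d : ℂ) ^ 2 := h
      _ = (p : ℂ) * ((r : ℂ) * (d : ℂ) ^ 2) := by rw [← h6c]; ring
  have h5 : cyclotomic n ℤ ∣ C (p : ℤ) * (c' * expand ℤ (p ^ t) c') - C ((r : ℤ) * d ^ 2) := by
    apply hΦ
    rw [map_sub, map_mul, map_mul, expand_aeval, aeval_C, aeval_C]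
    simp only [eq_intCast, Int.cast_natCast, Int.cast_mul, Int.cast_pow]
    rw [h4, sub_self]
  have h5' : cyclotomic n (ZMod p) ∣ C (((r : ℤ) * d ^ 2 : ℤ) : ZMod p) := by
    have := Polynomial.map_dvd (Int.castRingHom (ZMod p)) h5
    rw [map_cyclotomic, Polynomial.map_sub, Polynomial.map_mul, Polynomial.map_C,
      Polynomial.map_C] at this
    simp only [eq_intCast, Int.cast_natCast, CharP.cast_eq_zero, map_zero, zero_mul,
      zero_sub] at this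
    exact (dvd_neg.mp this)
  -- hence `p ∣ r * d ^ 2`
  have hzero : (((r : ℤ) * d ^ 2 : ℤ) : ZMod p) = 0 := by
    by_contra hne
    have hunit : IsUnit (cyclotomic n (ZMod p)) :=
      isUnit_of_dvd_unit h5' (Polynomial.isUnit_C.mpr (IsUnit.mk0 _ hne))
    have hdeg := natDegree_eq_zero_of_isUnit hunit
    rw [natDegree_cyclotomic] at hdeg
    exact (Nat.totient_pos.mpr hn).ne' hdeg
  have hdvd : (p : ℤ) ∣ (r : ℤ) * d ^ 2 := (ZMod.intCast_zmod_eq_zero_iff_dvd _ p).mp hzero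
  have hpZ : Prime (p : ℤ) := Nat.prime_iff_prime_int.mp hp.out
  have hpd : (p : ℤ) ∣ d := by
    rcases hpZ.dvd_or_dvd hdvd with h' | h'
    · exact absurd (Int.natCast_dvd_natCast.mp h') hr
    · exact hpZ.dvd_of_dvd_pow h'
  obtain ⟨d', hd'⟩ := hpd
  refine ⟨c', d', hd', ?_⟩
  apply mul_left_cancel₀ hp0
  rw [h4, hd']
  push_cast
  rw [← h6c]
  ring

/-- No element `c(ζ)/d` of the cyclotomic field has relative norm `6`. -/
lemma no_norm_six_field (p r : ℕ) [hp : Fact p.Prime] (hpr : p * r = 6) (hr : ¬ p ∣ r)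
    (n : ℕ) (hn : 0 < n) (hpn : ¬ p ∣ n) (t : ℕ)
    (ζ : ℂ) (hζ : IsPrimitiveRoot ζ n) :
    ∀ (k : ℕ) (c : ℤ[X]) (d : ℤ), d.natAbs = k → d ≠ 0 →
      aeval ζ c * aeval (ζ ^ (p ^ t)) c = 6 * (d : ℂ) ^ 2 → False := by
  intro k
  induction k using Nat.strong_induction_on with
  | _ k ih =>
    intro c d hk hd h
    obtain ⟨c', d', hdd, h'⟩ := descent_step p r hpr hr n hn hpn t ζ hζ c d h
    have hd' : d' ≠ 0 := by
      intro h0
      rw [h0, mul_zero] at hdd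
      exact hd hdd
    have hlt : d'.natAbs < k := by
      rw [← hk, hdd, Int.natAbs_mul, Int.natAbs_natCast]
      have h1 : 0 < d'.natAbs := Int.natAbs_pos.mpr hd'
      have h2 : 2 ≤ p := hp.out.two_le
      nlinarith
    exact ih d'.natAbs hlt c' d' rfl hd' h'

/-- `z = c(ζ)/d` and `conj z = c(ζ^s)/d` for one integer polynomial `c` and one nonzero
integer `d`. -/
def RepQ (ζ : ℂ) (s : ℕ) (z : ℂ) : Prop :=
  ∃ (c : ℤ[X]) (d : ℤ), d ≠ 0 ∧ (d : ℂ) * z = aeval ζ c ∧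
    (d : ℂ) * (starRingEnd ℂ) z = aeval (ζ ^ s) c

lemma repQ_zero (ζ : ℂ) (s : ℕ) : RepQ ζ s 0 := ⟨0, 1, one_ne_zero, by simp, by simp⟩

lemma repQ_add {ζ : ℂ} {s : ℕ} {z w : ℂ} (hz : RepQ ζ s z) (hw : RepQ ζ s w) :
    RepQ ζ s (z + w) := by
  obtain ⟨c, d, hd, h1, h2⟩ := hz
  obtain ⟨c', d', hd', h3, h4⟩ := hw
  refine ⟨C d' * c + C d * c', d * d', mul_ne_zero hd hd', ?_, ?_⟩
  · rw [map_add, map_mul, map_mul, aeval_C, aeval_C, ← h1, ← h3]
    simp only [eq_intCast]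
    push_cast
    ring
  · rw [map_add, map_add, map_mul, map_mul, aeval_C, aeval_C, ← h2, ← h4]
    simp only [eq_intCast]
    push_cast
    ring

lemma repQ_mul {ζ : ℂ} {s : ℕ} {z w : ℂ} (hz : RepQ ζ s z) (hw : RepQ ζ s w) :
    RepQ ζ s (z * w) := by
  obtain ⟨c, d, hd, h1, h2⟩ := hz
  obtain ⟨c', d', hd', h3, h4⟩ := hw
  refine ⟨c * c', d * d', mul_ne_zero hd hd', ?_, ?_⟩
  · rw [map_mul, ← h1, ← h3]
    push_cast
    ring
  · rw [map_mul, map_mul, ← h2, ← h4]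
    push_cast
    ring

lemma repQ_conj {ζ : ℂ} {s : ℕ} {z : ℂ} (hss : (ζ ^ s) ^ s = ζ) (hz : RepQ ζ s z) :
    RepQ ζ s ((starRingEnd ℂ) z) := by
  obtain ⟨c, d, hd, h1, h2⟩ := hz
  refine ⟨expand ℤ s c, d, hd, ?_, ?_⟩
  · rw [expand_aeval]
    exact h2
  · rw [expand_aeval, hss, Complex.conj_conj]
    exact h1

lemma repQ_sum {ζ : ℂ} {s : ℕ} {ι : Type*} (S : Finset ι) (f : ι → ℂ)
    (h : ∀ i ∈ S, RepQ ζ s (f i)) : RepQ ζ s (∑ i ∈ S, f i) := by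
  classical
  induction S using Finset.induction_on with
  | empty => simpa using repQ_zero ζ s
  | insert a S ha ih =>
    rw [Finset.sum_insert ha]
    exact repQ_add (h a (Finset.mem_insert_self a S))
      (ih (fun i hi => h i (Finset.mem_insert_of_mem hi)))

lemma conj_aeval (ζ : ℂ) (c : ℤ[X]) :
    (starRingEnd ℂ) (aeval ζ c) = aeval ((starRingEnd ℂ) ζ) c := by
  rw [aeval_def, aeval_def, hom_eval₂]
  congr 1
  exact RingHom.ext_int _ _

lemma repQ_of_eq {ζ : ℂ} {s : ℕ} {z : ℂ} (hconj : (starRingEnd ℂ) ζ = ζ ^ s)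
    (c : ℤ[X]) (d : ℤ) (hd : d ≠ 0) (h : (d : ℂ) * z = aeval ζ c) : RepQ ζ s z := by
  refine ⟨c, d, hd, h, ?_⟩
  have h' : (starRingEnd ℂ) ((d : ℂ) * z) = (starRingEnd ℂ) (aeval ζ c) := by rw [h]
  rw [map_mul, map_intCast, conj_aeval, hconj] at h'
  exact h'

lemma normSq_ne_six_of_repQ (p r : ℕ) [hp : Fact p.Prime] (hpr : p * r = 6) (hr : ¬ p ∣ r)
    (n : ℕ) (hn : 0 < n) (hpn : ¬ p ∣ n) (t : ℕ)
    (ζ : ℂ) (hζ : IsPrimitiveRoot ζ n) (S : ℂ) (hS : RepQ ζ (p ^ t) S) :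
    Complex.normSq S ≠ 6 := by
  intro hN
  obtain ⟨c, d, hd, h1, h2⟩ := hS
  have hSS : S * (starRingEnd ℂ) S = 6 := by
    rw [Complex.mul_conj, hN]
    norm_num
  have h6 : aeval ζ c * aeval (ζ ^ (p ^ t)) c = 6 * (d : ℂ) ^ 2 := by
    rw [← h1, ← h2]
    calc (d : ℂ) * S * ((d : ℂ) * (starRingEnd ℂ) S)
        = (d : ℂ) ^ 2 * (S * (starRingEnd ℂ) S) := by ring
      _ = 6 * (d : ℂ) ^ 2 := by rw [hSS]; ring
  exact no_norm_six_field p r hpr hr n hn hpn t ζ hζ d.natAbs c d rfl hd h6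

/-- The obstruction for one prime `p ∈ {2, 3}`. -/
theorem vector_form_prime (p r : ℕ) [hp : Fact p.Prime] (hpr : p * r = 6) (hr : ¬ p ∣ r)
    (n : ℕ) (hn : 0 < n) (hpn : ¬ p ∣ n) (t : ℕ) (hs : n ∣ p ^ t + 1)
    (ζ : ℂ) (hζ : IsPrimitiveRoot ζ n) (b c : Fin 6 → ℂ)
    (hb : ∀ i, ∃ z : ℂ, (∃ (P : ℤ[X]) (d : ℤ), d ≠ 0 ∧ (d : ℂ) * z = aeval ζ P) ∧
      b i = z / (Real.sqrt 6 : ℂ))
    (hc : ∀ i, ∃ z : ℂ, (∃ (P : ℤ[X]) (d : ℤ), d ≠ 0 ∧ (d : ℂ) * z = aeval ζ P) ∧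
      c i = z / (Real.sqrt 6 : ℂ)) :
    ‖∑ i, (starRingEnd ℂ) (b i) * c i‖ ^ 2 ≠ 1 / 6 := by
  intro h
  have hn0 : n ≠ 0 := hn.ne'
  have hnorm : ‖ζ‖ = 1 := Complex.norm_eq_one_of_pow_eq_one hζ.pow_eq_one hn0
  have h1 : ζ ^ (p ^ t) * ζ = 1 := by
    rw [← pow_succ]
    obtain ⟨k, hk⟩ := hs
    rw [hk, pow_mul, hζ.pow_eq_one, one_pow]
  have h2 : (starRingEnd ℂ) ζ * ζ = 1 := by
    rw [← Complex.normSq_eq_conj_mul_self, Complex.normSq_eq_norm_sq, hnorm]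
    norm_num
  have hconj : (starRingEnd ℂ) ζ = ζ ^ (p ^ t) := by
    have hζ0 : ζ ≠ 0 := by
      intro h0
      rw [h0] at h1
      simp at h1
    exact mul_right_cancel₀ hζ0 (h2.trans h1.symm)
  have hss : (ζ ^ (p ^ t)) ^ (p ^ t) = ζ := by
    have h3 := congrArg (starRingEnd ℂ) hconj
    rw [Complex.conj_conj, map_pow, hconj] at h3
    exact h3.symm
  choose zB hzB hB' using hb
  choose zC hzC hC' using hc
  have hs6 : ((Real.sqrt 6 : ℝ) : ℂ) * ((Real.sqrt 6 : ℝ) : ℂ) = 6 := by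
    rw [← Complex.ofReal_mul, Real.mul_self_sqrt (by norm_num)]
    norm_num
  have hs0 : ((Real.sqrt 6 : ℝ) : ℂ) ≠ 0 := by
    intro h0
    rw [h0] at hs6
    norm_num at hs6
  have hsum : ∑ i, (starRingEnd ℂ) (b i) * c i
      = (∑ i, (starRingEnd ℂ) (zB i) * zC i) / 6 := by
    rw [Finset.sum_div]
    refine Finset.sum_congr rfl (fun i _ => ?_)
    rw [hB' i, hC' i, map_div₀, Complex.conj_ofReal]
    field_simp
    rw [← hs6]
    ring
  rw [hsum] at h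
  have h4 : Complex.normSq ((∑ i, (starRingEnd ℂ) (zB i) * zC i) / 6) = 1 / 6 := by
    rw [Complex.normSq_eq_norm_sq]
    exact h
  rw [Complex.normSq_div] at h4
  have h6 : Complex.normSq (6 : ℂ) = 36 := by
    rw [Complex.normSq_apply]
    norm_num
  rw [h6] at h4
  have h5 : Complex.normSq (∑ i, (starRingEnd ℂ) (zB i) * zC i) = 6 := by
    field_simp at h4
    linarith
  have hrepB : ∀ i, RepQ ζ (p ^ t) (zB i) := by
    intro i
    obtain ⟨P, d, hd, hP⟩ := hzB i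
    exact repQ_of_eq hconj P d hd hP
  have hrepC : ∀ i, RepQ ζ (p ^ t) (zC i) := by
    intro i
    obtain ⟨P, d, hd, hP⟩ := hzC i
    exact repQ_of_eq hconj P d hd hP
  have hrep : RepQ ζ (p ^ t) (∑ i, (starRingEnd ℂ) (zB i) * zC i) :=
    repQ_sum Finset.univ _ (fun i _ => repQ_mul (repQ_conj hss (hrepB i)) (hrepC i))
  exact normSq_ne_six_of_repQ p r hpr hr n hn hpn t ζ hζ _ hrep h5

/-- Two vectors of `ℂ^6` whose coordinates, multiplied by `√6`, are of the form `P(ζ)/d` (that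
is, lie in the cyclotomic field `ℚ(ζ)`), `ζ` a primitive `n`-th root of unity with
`n ∣ 2^t + 1` or `n ∣ 3^t + 1`, are never unbiased. -/
theorem vector_form_field (n : ℕ) (hn : (∃ t, n ∣ 2 ^ t + 1) ∨ (∃ t, n ∣ 3 ^ t + 1))
    (ζ : ℂ) (hζ : IsPrimitiveRoot ζ n) (b c : Fin 6 → ℂ)
    (hb : ∀ i, ∃ z : ℂ, (∃ (P : ℤ[X]) (d : ℤ), d ≠ 0 ∧ (d : ℂ) * z = aeval ζ P) ∧
      b i = z / (Real.sqrt 6 : ℂ))
    (hc : ∀ i, ∃ z : ℂ, (∃ (P : ℤ[X]) (d : ℤ), d ≠ 0 ∧ (d : ℂ) * z = aeval ζ P) ∧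
      c i = z / (Real.sqrt 6 : ℂ)) :
    ‖∑ i, (starRingEnd ℂ) (b i) * c i‖ ^ 2 ≠ 1 / 6 := by
  have caseA : ∀ t, n ∣ 3 ^ t + 1 → ‖∑ i, (starRingEnd ℂ) (b i) * c i‖ ^ 2 ≠ 1 / 6 := by
    intro t ht
    have : Fact (Nat.Prime 3) := ⟨Nat.prime_three⟩
    have hpos : 0 < n := Nat.pos_of_dvd_of_pos ht (by positivity)
    refine vector_form_prime 3 2 (by norm_num) (by norm_num) n hpos ?_ t ht ζ hζ b c hb hc
    intro h3
    have h3' : 3 ∣ 3 ^ t + 1 := h3.trans ht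
    rcases Nat.eq_zero_or_pos t with rfl | htpos
    · norm_num at h3'
    · have h3'' : 3 ∣ 3 ^ t := dvd_pow_self 3 htpos.ne'
      have := (Nat.dvd_add_right h3'').mp h3'
      norm_num at this
  rcases hn with ⟨t, ht⟩ | ⟨t, ht⟩
  · rcases Nat.eq_zero_or_pos t with rfl | htpos
    · exact caseA 0 (by simpa using ht)
    · have : Fact (Nat.Prime 2) := ⟨Nat.prime_two⟩
      have hpos : 0 < n := Nat.pos_of_dvd_of_pos ht (by positivity)
      have hodd : Odd (2 ^ t + 1) := by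
        have : Even (2 ^ t) := (Nat.even_pow' htpos.ne').mpr even_two
        exact this.add_one
      refine vector_form_prime 2 3 (by norm_num) (by norm_num) n hpos ?_ t ht ζ hζ b c hb hc
      intro h2
      exact (Nat.not_even_iff_odd.mpr hodd) (even_iff_two_dvd.mpr (h2.trans ht))
  · exact caseA t ht

/-- Every element of the field `ℚ(ζ)` is of the form `P(ζ)/d` with `P` an integer polynomial
and `d` a nonzero integer. -/
lemma exists_rep_of_mem_adjoin (n : ℕ) (hn : 0 < n) (ζ : ℂ) (hζ : IsPrimitiveRoot ζ n) (z : ℂ)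
    (hz : z ∈ IntermediateField.adjoin ℚ {ζ}) :
    ∃ (P : ℤ[X]) (d : ℤ), d ≠ 0 ∧ (d : ℂ) * z = aeval ζ P := by
  have hint : IsIntegral ℚ ζ := (hζ.isIntegral hn).tower_top
  have hz' : z ∈ Algebra.adjoin ℚ {ζ} := by
    rw [← IntermediateField.adjoin_simple_toSubalgebra_of_isAlgebraic hint.isAlgebraic]
    exact hz
  rw [Algebra.adjoin_singleton_eq_range_aeval] at hz'
  obtain ⟨q, rfl⟩ := hz'
  obtain ⟨b, hb, hb'⟩ := IsLocalization.integerNormalization_spec (nonZeroDivisors ℤ) q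
  refine ⟨IsLocalization.integerNormalization (nonZeroDivisors ℤ) q, b,
    nonZeroDivisors.ne_zero hb, ?_⟩
  have h1 := congrArg (aeval ζ) hb'
  rw [aeval_map_algebraMap] at h1
  rw [h1, map_zsmul, zsmul_eq_mul]
  rfl

/-- Field form: the coordinates times `√6` lie in the cyclotomic field `ℚ(ζ)`. -/
theorem vector_form_adjoin (n : ℕ) (hn : (∃ t, n ∣ 2 ^ t + 1) ∨ (∃ t, n ∣ 3 ^ t + 1))
    (ζ : ℂ) (hζ : IsPrimitiveRoot ζ n) (b c : Fin 6 → ℂ)
    (hb : ∀ i, ∃ z ∈ IntermediateField.adjoin ℚ {ζ}, b i = z / (Real.sqrt 6 : ℂ))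
    (hc : ∀ i, ∃ z ∈ IntermediateField.adjoin ℚ {ζ}, c i = z / (Real.sqrt 6 : ℂ)) :
    ‖∑ i, (starRingEnd ℂ) (b i) * c i‖ ^ 2 ≠ 1 / 6 := by
  have hpos : 0 < n := by
    rcases hn with ⟨t, ht⟩ | ⟨t, ht⟩
    · exact Nat.pos_of_dvd_of_pos ht (by positivity)
    · exact Nat.pos_of_dvd_of_pos ht (by positivity)
  refine vector_form_field n hn ζ hζ b c (fun i => ?_) (fun i => ?_)
  · obtain ⟨z, hz, hbz⟩ := hb i
    exact ⟨z, exists_rep_of_mem_adjoin n hpos ζ hζ z hz, hbz⟩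
  · obtain ⟨z, hz, hcz⟩ := hc i
    exact ⟨z, exists_rep_of_mem_adjoin n hpos ζ hζ z hz, hcz⟩

end Vale.Agent.Helper6.P355Field
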