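import Mathlib
import Vale.Agent.Results.P355.ButsonCyclotomic

/-!
Proof of the plain (vector) form of the Butson obstruction of P355, used by the hand-in
`P355.ButsonPlain`.
-/

namespace Vale.Agent.Helper6.P355Plain

open Vale.Agent.Results.P355.ButsonCyclotomic

/-- Six `m`-th roots of unity never add up to a complex number of squared modulus `6`. -/
theorem normSq_sum_roots_ne_six (m : ℕ)
    (hm : (∃ t, m ∣ 2 * (2 ^ t + 1)) ∨ (∃ t, m ∣ 3 ^ t + 1))
    (w : Fin 6 → ℂ) (hw : ∀ t, w t ^ m = 1) : Complex.normSq (∑ t, w t) ≠ 6 := by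
  intro hN
  have caseA : ∀ t, m ∣ 3 ^ t + 1 → False := by
    intro t ht
    have : Fact (Nat.Prime 3) := ⟨Nat.prime_three⟩
    refine normSq_sum_ne_six 3 2 (by norm_num) (by norm_num) (3 ^ t + 1) (by positivity) ?_ t
      dvd_rfl w ?_ hN
    · intro h3
      rcases Nat.eq_zero_or_pos t with rfl | htpos
      · norm_num at h3
      · have h3' : 3 ∣ 3 ^ t := dvd_pow_self 3 htpos.ne'
        have := (Nat.dvd_add_right h3').mp h3
        norm_num at this
    · intro i
      left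
      obtain ⟨k, hk⟩ := ht
      rw [hk, pow_mul, hw i, one_pow]
  rcases hm with ⟨t, ht⟩ | ⟨t, ht⟩
  · rcases Nat.eq_zero_or_pos t with rfl | htpos
    · exact caseA 1 (by simpa using ht)
    · have : Fact (Nat.Prime 2) := ⟨Nat.prime_two⟩
      have hodd : Odd (2 ^ t + 1) := by
        have : Even (2 ^ t) := (Nat.even_pow' htpos.ne').mpr even_two
        exact this.add_one
      refine normSq_sum_ne_six 2 3 (by norm_num) (by norm_num) (2 ^ t + 1) (by positivity) ?_ t
        dvd_rfl w ?_ hN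
      · intro h2
        exact (Nat.not_even_iff_odd.mpr hodd) (even_iff_two_dvd.mpr h2)
      · intro i
        have h1 : (w i ^ (2 ^ t + 1)) ^ 2 = 1 := by
          obtain ⟨k, hk⟩ := ht
          rw [← pow_mul, mul_comm, hk, pow_mul, hw i, one_pow]
        rcases sq_eq_one_iff.mp h1 with h | h
        · left
          exact h
        · right
          rw [hodd.neg_pow, h, neg_neg]
  · exact caseA t ht

theorem vector_form (m : ℕ) (hm : (∃ t, m ∣ 2 * (2 ^ t + 1)) ∨ (∃ t, m ∣ 3 ^ t + 1))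
    (b c : Fin 6 → ℂ)
    (hb : ∀ t, ∃ z : ℂ, z ^ m = 1 ∧ b t = z / (Real.sqrt 6 : ℂ))
    (hc : ∀ t, ∃ z : ℂ, z ^ m = 1 ∧ c t = z / (Real.sqrt 6 : ℂ)) :
    ‖∑ t, (starRingEnd ℂ) (b t) * c t‖ ^ 2 ≠ 1 / 6 := by
  intro h
  choose zB hzB hB' using hb
  choose zC hzC hC' using hc
  have hs : ((Real.sqrt 6 : ℝ) : ℂ) * ((Real.sqrt 6 : ℝ) : ℂ) = 6 := by
    rw [← Complex.ofReal_mul, Real.mul_self_sqrt (by norm_num)]
    norm_num
  have hs0 : ((Real.sqrt 6 : ℝ) : ℂ) ≠ 0 := by
    intro h0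
    rw [h0] at hs
    norm_num at hs
  have hsum : ∑ t, (starRingEnd ℂ) (b t) * c t
      = (∑ t, (starRingEnd ℂ) (zB t) * zC t) / 6 := by
    rw [Finset.sum_div]
    refine Finset.sum_congr rfl (fun t _ => ?_)
    rw [hB' t, hC' t, map_div₀, Complex.conj_ofReal]
    field_simp
    rw [← hs]
    ring
  rw [hsum] at h
  have h1 : Complex.normSq ((∑ t, (starRingEnd ℂ) (zB t) * zC t) / 6) = 1 / 6 := by
    rw [Complex.normSq_eq_norm_sq]
    exact h
  rw [Complex.normSq_div] at h1
  have h6 : Complex.normSq (6 : ℂ) = 36 := by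
    rw [Complex.normSq_apply]
    norm_num
  rw [h6] at h1
  have h2 : Complex.normSq (∑ t, (starRingEnd ℂ) (zB t) * zC t) = 6 := by
    field_simp at h1
    linarith
  refine normSq_sum_roots_ne_six m hm (fun t => (starRingEnd ℂ) (zB t) * zC t) ?_ h2
  intro t
  rw [mul_pow, ← map_pow, hzB t, hzC t]
  simp

end Vale.Agent.Helper6.P355Plain
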